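import Vale.Agent.P200.Skew.Stack

/-!
Monomial sets with the Hilbert function of an ideal containing two arbitrary forms and forms with
skew linear factorisations.
-/

namespace Vale.Agent.P200.Skew

open MvPolynomial Module
open scoped TensorProduct

universe u

variable {K : Type u} [Field K] {D : Type u} [DivisionRing D] [Algebra K D] {m : ℕ}
variable (F : Frame K D m) (f : Fin (m + 2) → MvPolynomial (Fin (m + 2)) K)
  (a : Fin (m + 2) → ℕ)

/-- The first two forms. -/
noncomputable def lowForm (i : Fin 2) : MvPolynomial (Fin (m + 2)) K := f (Frame.yIdx i)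

/-- The image of a form on the skew subspace. -/
noncomputable def image (p : MvPolynomial (Fin (m + 2)) K) : Polynomial D :=
  F.proj 0 (poly p)

/-- Binary combinations of the images of the two low forms. -/
noncomputable def lowMult (N : ℕ) : Submodule D (Polynomial D) :=
  mult (image F (f 0)) (N + 1 - a 0) ⊔ mult (image F (f 1)) (N + 1 - a 1)

variable (hf : ∀ i, (f i).IsHomogeneous (a i))

lemma image_add (p q : MvPolynomial (Fin (m + 2)) K) :
    image F (p + q) = image F p + image F q := by
  simp only [image, poly, TensorProduct.tmul_add, map_add]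

lemma image_zero : image F (0 : MvPolynomial (Fin (m + 2)) K) = 0 := by
  simp only [image, poly, TensorProduct.tmul_zero, map_zero]

lemma image_mul (p q : MvPolynomial (Fin (m + 2)) K) :
    image F (p * q) = image F p * image F q := by
  rw [image, image, image, ← F.proj_zero_mul_poly]
  simp only [poly, Algebra.TensorProduct.tmul_mul_tmul, one_mul]

lemma image_mem_BF {p : MvPolynomial (Fin (m + 2)) K} {d : ℕ} (hp : p.IsHomogeneous d) :
    image F p ∈ BF D (d + 1) := by
  refine F.proj_TD_le 0 ?_
  simpa using poly_mem_TD hp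

lemma mult_left_mul {G v u : Polynomial D} {s i : ℕ} (hv : v ∈ mult G s) (hu : u ∈ BF D (i + 1))
    : u * v ∈ mult G (s + i) := by
  obtain ⟨w, hw, rfl⟩ := hv
  refine ⟨u * w, ?_, by simp [rmul_apply, mul_assoc]⟩
  rw [SetLike.mem_coe, mem_BF] at hw ⊢
  rw [mem_BF] at hu
  by_cases hu0 : u = 0
  · simp [hu0]
  by_cases hw0 : w = 0
  · simp [hw0]
  rw [Polynomial.degree_eq_natDegree hu0, Nat.cast_lt] at hu
  rw [Polynomial.degree_eq_natDegree hw0, Nat.cast_lt] at hw
  rw [Polynomial.degree_mul, Polynomial.degree_eq_natDegree hu0,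
    Polynomial.degree_eq_natDegree hw0, ← Nat.cast_add, Nat.cast_lt]
  omega

lemma mult_le_mult {G : Polynomial D} {s t : ℕ} (h : s ≤ t) : mult G s ≤ mult G t :=
  Submodule.map_mono (BF_mono h)

lemma lowMult_left_mul {u v : Polynomial D} {p i : ℕ} (hu : u ∈ BF D (i + 1))
    (hv : v ∈ lowMult F f a p) : u * v ∈ lowMult F f a (p + i) := by
  obtain ⟨x, hx, y, hy, rfl⟩ := Submodule.mem_sup.1 hv
  rw [mul_add]
  refine add_mem (Submodule.mem_sup_left ?_) (Submodule.mem_sup_right ?_)
  · by_cases hs : p + 1 ≤ a 0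
    · rw [show p + 1 - a 0 = 0 by omega, mult, BF_zero, Submodule.map_bot, Submodule.mem_bot] at hx
      simp [hx]
    · exact mult_le_mult (by omega) (mult_left_mul hx hu)
  · by_cases hs : p + 1 ≤ a 1
    · rw [show p + 1 - a 1 = 0 by omega, mult, BF_zero, Submodule.map_bot, Submodule.mem_bot] at hy
      simp [hy]
    · exact mult_le_mult (by omega) (mult_left_mul hy hu)

/-- Homogeneous members of the ideal of some of the forms. -/
lemma image_span_mem {s : Finset (Fin (m + 2))} (hs : ∀ l ∈ s, image F (f l) ∈ lowMult F f a (a l))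
    (hf : ∀ i, (f i).IsHomogeneous (a i)) {N : ℕ} {p : MvPolynomial (Fin (m + 2)) K}
    (hp : p.IsHomogeneous N) (hmem : p ∈ Ideal.span (f '' (s : Set (Fin (m + 2))))) :
    image F p ∈ lowMult F f a N := by
  classical
  rw [show Ideal.span (f '' (s : Set (Fin (m + 2)))) =
      Submodule.span (MvPolynomial (Fin (m + 2)) K) (f '' (s : Set (Fin (m + 2)))) from rfl,
    Submodule.mem_span_image_finset_iff_exists_fun'] at hmem
  obtain ⟨u, hu⟩ := hmem
  have hcomp : p = ∑ l ∈ s, if a l ≤ N then f l * homogeneousComponent (N - a l) (u l) else 0 := by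
    conv_lhs => rw [← (homogeneousComponent_of_mem hp).trans (if_pos rfl), ← hu, map_sum]
    refine Finset.sum_congr rfl fun l hl => ?_
    rw [smul_eq_mul, mul_comm, homogeneousComponent_mul_left (hf l)]
  rw [hcomp]
  have himg : ∀ (t : Finset (Fin (m + 2))) (g : Fin (m + 2) → MvPolynomial (Fin (m + 2)) K),
      image F (∑ l ∈ t, g l) = ∑ l ∈ t, image F (g l) := fun t g => by
    simp only [image, poly, TensorProduct.tmul_sum, map_sum]
  rw [himg]
  refine sum_mem fun l hl => ?_
  split_ifs with h
  · rw [mul_comm, image_mul]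
    have h1 := lowMult_left_mul F f a
      (image_mem_BF F (homogeneousComponent_isHomogeneous (N - a l) (u l))) (hs l hl)
    rwa [Nat.add_sub_cancel' h] at h1
  · rw [image_zero]
    exact zero_mem _

lemma self_mem_lowMult (i : Fin 2) : image F (lowForm f i) ∈ lowMult F f a (a (Frame.yIdx i)) := by
  have h0 : Frame.yIdx (m := m) 0 = 0 := rfl
  have h1 : Frame.yIdx (m := m) 1 = 1 := Fin.ext (by simp [Frame.yIdx])
  have hone : (1 : Polynomial D) ∈ BF D 1 := by
    rw [mem_BF, Polynomial.degree_one]
    exact_mod_cast Nat.one_pos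
  fin_cases i
  · refine Submodule.mem_sup_left ?_
    simp only [lowForm, Fin.zero_eta, h0]
    rw [show a 0 + 1 - a 0 = 1 by omega]
    exact ⟨1, hone, by simp [rmul_apply]⟩
  · refine Submodule.mem_sup_right ?_
    simp only [lowForm, Fin.mk_one, h1]
    rw [show a 1 + 1 - a 1 = 1 by omega]
    exact ⟨1, hone, by simp [rmul_apply]⟩

variable (ha0 : 1 ≤ a 0) (ha01 : a 0 ≤ a 1)
  (z : Fin m → Fin m → D) (W : Fin m → Fin m → D)
  (hW : ∀ l l', ∑ k, W l k * z k l' = if l = l' then 1 else 0)
  (p : ℕ) (hp : 1 ≤ p) (htail : ∀ k : Fin m, a k.succ.succ = p)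
  (hpow : ∀ k, F.phi k ^ p - ∑ l : Fin m, z k l • poly (f l.succ.succ) ∈
    ext' D (degPart p (Ideal.span {f 0, f 1})))
  (hfull : ∃ N, homogeneousSubmodule (Fin (m + 2)) K N ≤
    (Ideal.span (Set.range f)).restrictScalars K)

include hf in
lemma image_low_mem {N : ℕ} {q : MvPolynomial (Fin (m + 2)) K} (hq : q.IsHomogeneous N)
    (hmem : q ∈ Ideal.span {f 0, f 1}) : image F q ∈ lowMult F f a N := by
  refine image_span_mem F f a (s := {0, 1}) ?_ hf hq ?_
  · intro l hl
    simp only [Finset.mem_insert, Finset.mem_singleton] at hl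
    have h1 : Frame.yIdx (m := m) 1 = 1 := Fin.ext (by simp [Frame.yIdx])
    rcases hl with rfl | rfl
    · exact self_mem_lowMult F f a 0
    · have := self_mem_lowMult F f a 1
      rwa [lowForm, h1] at this
  · simpa [Set.image_insert_eq] using hmem

include hf hp hW hpow in
lemma image_tail_mem (l : Fin m) : image F (f l.succ.succ) ∈ lowMult F f a p := by
  classical
  have key : ∀ k, ∑ l' : Fin m, z k l' • image F (f l'.succ.succ) ∈ lowMult F f a p := fun k => by
    have hle : (ext' D (degPart p (Ideal.span {f 0, f 1}))).map (F.proj 0) ≤ lowMult F f a p := by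
      rw [ext', Submodule.map_span, Submodule.span_le]
      rintro _ ⟨_, ⟨q, hq, rfl⟩, rfl⟩
      exact image_low_mem F f a hf (mem_degPart.1 hq).1 (mem_degPart.1 hq).2
    have h := hle ⟨_, hpow k, rfl⟩
    have hz : F.proj 0 (F.phi k ^ p) = 0 := by
      obtain ⟨q, rfl⟩ := Nat.exists_eq_add_of_le' hp
      rw [pow_succ]
      exact F.proj_zero_mul_phi _ k
    rw [map_sub, hz, zero_sub, map_sum, neg_mem_iff] at h
    simpa [image] using h
  have h : (∑ k, W l k • ∑ l' : Fin m, z k l' • image F (f l'.succ.succ)) ∈ lowMult F f a p :=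
    sum_mem fun k _ => Submodule.smul_mem _ _ (key k)
  simp only [Finset.smul_sum, smul_smul] at h
  rw [Finset.sum_comm] at h
  simp only [← Finset.sum_smul, hW, ite_smul, one_smul, zero_smul, Finset.sum_ite_eq,
    Finset.mem_univ, if_true] at h
  exact h

include hf hp htail hW hpow hfull in
lemma exists_cofinite : ∃ N, BF D (N + 1) ≤ lowMult F f a N := by
  classical
  obtain ⟨N, hN⟩ := hfull
  refine ⟨N, fun v hv => ?_⟩
  rw [BF, Polynomial.degreeLT_eq_span_X_pow] at hv
  refine Submodule.span_le.2 ?_ hv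
  intro x hx
  simp only [Finset.coe_image, Set.mem_image, Finset.coe_range, Set.mem_Iio] at hx
  obtain ⟨i, hi, rfl⟩ := hx
  let e : Fin (m + 2) →₀ ℕ := Finsupp.single 0 i + Finsupp.single 1 (N - i)
  let q : MvPolynomial (Fin (m + 2)) K := F.y 0 ^ i * F.y 1 ^ (N - i)
  have hq : q.IsHomogeneous N := by
    have := ((F.y_hom 0).pow i).mul ((F.y_hom 1).pow (N - i))
    rwa [show 1 * i + 1 * (N - i) = N by omega] at this
  have himg : image F q = Polynomial.X ^ i := by
    have h := F.mon_mul_ypoly 0 i (N - i)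
    rw [F.mon_zero, one_mul, zero_add] at h
    rw [image, h, F.proj_mon, Frame.tb, if_pos]
    · have h01 : (0 : Fin (m + 2)) ≠ 1 := fun h => by
        have := congrArg Fin.val h
        simp at this
      simp [Finsupp.single_eq_of_ne h01]
    · ext k
      have h1 : (k.succ.succ : Fin (m + 2)) ≠ 1 := fun h => by
        have := congrArg Fin.val h
        simp at this
      simp [Frame.tail_apply, Fin.succ_ne_zero, Finsupp.single_eq_of_ne h1]
  rw [SetLike.mem_coe, ← himg]
  refine image_span_mem F f a (s := Finset.univ) ?_ hf hq ?_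
  · intro l _
    induction l using Fin.cases with
    | zero =>
      exact image_low_mem F f a hf (hf 0) (Ideal.subset_span (by simp))
    | succ l =>
      induction l using Fin.cases with
      | zero =>
        exact image_low_mem F f a hf (hf 1) (Ideal.subset_span (by simp))
      | succ k =>
        rw [htail k]
        exact image_tail_mem F f a hf z W hW p hp hpow k
  · simpa using hN ((mem_homogeneousSubmodule _ _).2 hq)

variable (J : Ideal (MvPolynomial (Fin (m + 2)) K)) (hJ : ∀ i, f i ∈ J)

include hf hJ in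
lemma good_layer (τ : Fin m →₀ ℕ) :
    Good (a 0) (a 1) (image F (f 0)) (image F (f 1)) (layer F J τ) where
  le s := layer_le F J τ s
  up_le s := up_layer_le F J τ s
  mem₁ := layer_mono F J (zero_le (a := τ)) _
    ⟨poly (f 0), ⟨Submodule.subset_span ⟨f 0, mem_degPart.2 ⟨by simpa using hf 0, hJ 0⟩, rfl⟩,
      by rw [F.FS_zero]; exact Submodule.mem_top⟩, rfl⟩
  mem₂ := layer_mono F J (zero_le (a := τ)) _
    ⟨poly (f 1), ⟨Submodule.subset_span ⟨f 1, mem_degPart.2 ⟨by simpa using hf 1, hJ 1⟩, rfl⟩,
      by rw [F.FS_zero]; exact Submodule.mem_top⟩, rfl⟩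

include hf hJ hpow htail in
lemma layer_eq_BF {τ : Fin m →₀ ℕ} {k : Fin m} (hk : p ≤ τ k) (s : ℕ) :
    layer F J τ s = BF D (s + 1) := by
  classical
  refine le_antisymm (layer_le F J τ s) fun v hv => ?_
  refine layer_mono F J (Finsupp.single_le_iff.2 hk) s ?_
  rw [BF, Polynomial.degreeLT_eq_span_X_pow] at hv
  refine Submodule.span_le.2 ?_ hv
  intro x hx
  simp only [Finset.coe_image, Set.mem_image, Finset.coe_range, Set.mem_Iio] at hx
  obtain ⟨i, hi, rfl⟩ := hx
  let e : Fin (m + 2) →₀ ℕ :=
    Finsupp.single k.succ.succ p + (Finsupp.single 0 i + Finsupp.single 1 (s - i))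
  have hpw : F.mon (Finsupp.single k.succ.succ p) = F.phi k ^ p := by
    have h0 : (0 : Fin (m + 2)) ≠ k.succ.succ := (Fin.succ_ne_zero _).symm
    have h1 : (1 : Fin (m + 2)) ≠ k.succ.succ := fun hk => by
      have := congrArg Fin.val hk
      simp at this
    rw [Frame.mon, Frame.tail_single_succ, F.wordL_single _ (List.nodup_finRange m),
      if_pos (List.mem_finRange k), Finsupp.single_eq_of_ne h0, Finsupp.single_eq_of_ne h1]
    simp [poly, ← Algebra.TensorProduct.one_def]
  have hphi : F.phi k ^ p ∈ ext' D (degPart p J) := by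
    rw [show F.phi k ^ p = (F.phi k ^ p - ∑ l : Fin m, z k l • poly (f l.succ.succ)) +
      ∑ l : Fin m, z k l • poly (f l.succ.succ) by abel]
    refine add_mem (ext_mono (fun q hq => mem_degPart.2 ⟨(mem_degPart.1 hq).1, ?_⟩) (hpow k))
      (sum_mem fun l _ => Submodule.smul_mem _ _
        (Submodule.subset_span ⟨_, mem_degPart.2 ⟨htail l ▸ hf _, hJ _⟩, rfl⟩))
    refine Ideal.span_le.2 ?_ (mem_degPart.1 hq).2
    rintro x (rfl | rfl) <;> exact hJ _
  have htail' : Frame.tail e = Finsupp.single k p := by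
    ext l
    have h1 : (l.succ.succ : Fin (m + 2)) ≠ 1 := fun h => by
      have := congrArg Fin.val h
      simp at this
    simp [e, Frame.tail_apply, Finsupp.single_apply, Fin.succ_ne_zero,
      Finsupp.single_eq_of_ne h1]
  refine ⟨F.mon e, ⟨?_, F.mem_FS.2 fun e' he' => ?_⟩, ?_⟩
  · rw [← F.mon_mul_ypoly, hpw]
    have hq : (F.y 0 ^ i * F.y 1 ^ (s - i)).IsHomogeneous s := by
      have := ((F.y_hom 0).pow i).mul ((F.y_hom 1).pow (s - i))
      rwa [show 1 * i + 1 * (s - i) = s by omega] at this
    have := ext_degPart_mul (e := s) hphi (poly_mem_TD hq)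
    rwa [show p + s = s + (Finsupp.single k p).degree by simp; omega] at this
  · rw [← F.basis_apply, Basis.repr_self, Finsupp.single_apply] at he'
    by_cases h : e = e'
    · subst h; rw [htail']
    · simp [h] at he'
  · rw [F.proj_mon, Frame.tb, if_pos htail']
    have h0 : (0 : Fin (m + 2)) ≠ k.succ.succ := (Fin.succ_ne_zero _).symm
    have h01 : (0 : Fin (m + 2)) ≠ 1 := fun h => by
      have := congrArg Fin.val h
      simp at this
    simp [e, Finsupp.single_eq_of_ne h0, Finsupp.single_eq_of_ne h01]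

include hf ha0 ha01 z W hW hp htail hpow hfull in
/-- Monomial sets with the Hilbert functions of the ideals containing the forms, monotone in the
ideal. -/
theorem exists_models :
    ∃ T : Ideal (MvPolynomial (Fin (m + 2)) K) → ℕ → Finset (Fin (m + 2) →₀ ℕ),
      ∀ J, (∀ i, f i ∈ J) →
        (∀ d, (∀ e ∈ T J d, e.degree = d) ∧
          (T J d).card = finrank K (degPart d J) ∧
          (∀ e : Fin (m + 2) →₀ ℕ, e.degree = d → (∃ i, a i ≤ e i) → e ∈ T J d) ∧
          ∀ e ∈ T J d, ∀ i, e + Finsupp.single i 1 ∈ T J (d + 1)) ∧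
        ∀ J', J ≤ J' → ∀ d, T J d ⊆ T J' d := by
  classical
  obtain ⟨N, hN⟩ := exists_cofinite F f a hf z W hW p hp htail hpow hfull
  have hcof : ∃ N, BF D (N + 1) ≤
      mult (image F (f 0)) (N + 1 - a 0) ⊔ mult (image F (f 1)) (N + 1 - a 1) := ⟨N, hN⟩
  let exps : ℕ → Finset (Fin (m + 2) →₀ ℕ) := fun d =>
    (Finset.univ : Finset (Fin (m + 2))).finsuppAntidiag d
  have hexps : ∀ {d : ℕ} {e : Fin (m + 2) →₀ ℕ}, e ∈ exps d ↔ e.degree = d := fun {d e} => by
    simp [exps, Finsupp.degree_eq_sum]
  refine ⟨fun J d => (exps d).filter fun e =>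
    e 0 ∈ model (a 1) (layer F J (Frame.tail e)) (e 0 + e 1), fun J hJ => ⟨?_, ?_⟩⟩
  swap
  · intro J' hJJ' d e he
    rw [Finset.mem_filter] at he ⊢
    refine ⟨he.1, model_mono ?_ (layer_le F J' _ _) he.2⟩
    exact Submodule.map_mono (inf_le_inf_right _ (ext_mono fun q hq =>
      mem_degPart.2 ⟨(mem_degPart.1 hq).1, hJJ' (mem_degPart.1 hq).2⟩))
  have hg := fun τ => good_layer F f a hf J hJ τ
  have hspec := fun τ => (hg τ).model_spec ha0 ha01 hcof
  let T : ℕ → Finset (Fin (m + 2) →₀ ℕ) := fun d => (exps d).filter fun e =>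
    e 0 ∈ model (a 1) (layer F J (Frame.tail e)) (e 0 + e 1)
  have hT : ∀ {d : ℕ} {e : Fin (m + 2) →₀ ℕ}, e ∈ T d ↔
      e.degree = d ∧ e 0 ∈ model (a 1) (layer F J (Frame.tail e)) (e 0 + e 1) := fun {d e} => by
    simp [T, hexps]
  suffices h : ∀ d, (∀ e ∈ T d, e.degree = d) ∧ (T d).card = finrank K (degPart d J) ∧
      (∀ e : Fin (m + 2) →₀ ℕ, e.degree = d → (∃ i, a i ≤ e i) → e ∈ T d) ∧
      ∀ e ∈ T d, ∀ i, e + Finsupp.single i 1 ∈ T (d + 1) from h
  refine fun d => ⟨fun e he => (hT.1 he).1, ?_, fun e hd hpw => ?_, fun e he i => ?_⟩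
  · rw [finrank_degPart_eq_sum F J d, Finset.card_eq_sum_card_fiberwise
      (f := Frame.tail) (t := Quad.yExps m d) (fun e he => by
        simp only [Finset.mem_coe] at he ⊢
        rw [Quad.mem_yExps, ← (hT.1 he).1, Frame.degree_split]
        omega)]
    refine Finset.sum_congr rfl fun τ hτ => ?_
    rw [Quad.mem_yExps] at hτ
    rw [← ((hspec τ (d - τ.degree))).1]
    refine Finset.card_nbij' (fun e => e 0)
      (fun i => Finsupp.equivFunOnFinite.symm (Fin.cons i (Fin.cons (d - τ.degree - i) ⇑τ)))
      ?_ ?_ ?_ ?_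
    · intro e he
      obtain ⟨he1, rfl⟩ := Finset.mem_filter.1 he
      have h := (hT.1 he1)
      rw [Frame.degree_split] at h
      show e 0 ∈ _
      rw [show d - (Frame.tail e).degree = e 0 + e 1 by omega]
      exact h.2
    · intro i hi
      have hi' := (mem_model.1 hi).1
      let e : Fin (m + 2) →₀ ℕ :=
        Finsupp.equivFunOnFinite.symm (Fin.cons i (Fin.cons (d - τ.degree - i) ⇑τ))
      have h0 : e 0 = i := rfl
      have h1 : e 1 = d - τ.degree - i := rfl
      have ht : Frame.tail e = τ := Finsupp.ext fun k => rfl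
      show e ∈ _
      refine Finset.mem_filter.2 ⟨hT.2 ⟨?_, ?_⟩, ht⟩
      · rw [Frame.degree_split, h0, h1, ht]; omega
      · rw [h0, h1, ht, show i + (d - τ.degree - i) = d - τ.degree by omega]
        exact hi
    · intro e he
      obtain ⟨he1, ht⟩ := Finset.mem_filter.1 he
      have h := (hT.1 he1).1
      rw [Frame.degree_split, ht] at h
      refine exponent_ext ?_ rfl ?_
      · rw [ht]; exact Finsupp.ext fun k => rfl
      · rw [Frame.degree_split, Frame.degree_split, ht]
        show e 0 + (d - τ.degree - e 0) + _ = _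
        rw [show Frame.tail (Finsupp.equivFunOnFinite.symm
          (Fin.cons (e 0) (Fin.cons (d - τ.degree - e 0) ⇑τ))) = τ from Finsupp.ext fun k => rfl]
        omega
    · intro i _; rfl
  · refine hT.2 ⟨hd, ?_⟩
    obtain ⟨i, hi⟩ := hpw
    induction i using Fin.cases with
    | zero =>
      exact ((hspec _ _).2.1) (e 0) (by omega) (Or.inl hi)
    | succ i =>
      induction i using Fin.cases with
      | zero =>
        refine ((hspec _ _).2.1) (e 0) (by omega) (Or.inr ?_)
        have : a 1 ≤ e 1 := hi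
        omega
      | succ k =>
        rw [htail k] at hi
        rw [mem_model]
        have : codim (layer F J (Frame.tail e)) (e 0 + e 1) = 0 := by
          rw [codim, layer_eq_BF F f a hf z p htail hpow J hJ (k := k) hi, finrank_BF]
          omega
        omega
  · obtain ⟨hd, hm⟩ := hT.1 he
    refine hT.2 ⟨by simp [hd], ?_⟩
    have hcl := (hspec (Frame.tail e) (e 0 + e 1)).2.2 (e 0) hm
    have h01 : (0 : Fin (m + 2)) ≠ 1 := fun h => by
      have := congrArg Fin.val h
      simp at this
    induction i using Fin.cases with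
    | zero =>
      have ht : Frame.tail (Finsupp.single (0 : Fin (m + 2)) 1) = 0 := by
        ext k; simp [Frame.tail_apply, Fin.succ_ne_zero]
      rw [Frame.tail_add, ht, add_zero]
      simp only [Finsupp.add_apply, Finsupp.single_eq_same, Finsupp.single_eq_of_ne h01.symm,
        add_zero]
      rw [show e 0 + 1 + e 1 = e 0 + e 1 + 1 by omega]
      exact hcl.2
    | succ i =>
      induction i using Fin.cases with
      | zero =>
        have ht : Frame.tail (Finsupp.single (1 : Fin (m + 2)) 1) = 0 := by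
          ext k
          have h1 : (k.succ.succ : Fin (m + 2)) ≠ 1 := fun h => by
            have := congrArg Fin.val h
            simp at this
          simp [Frame.tail_apply, Finsupp.single_eq_of_ne h1]
        rw [show ((0 : Fin (m + 1)).succ : Fin (m + 2)) = 1 from rfl]
        rw [Frame.tail_add, ht, add_zero]
        simp only [Finsupp.add_apply, Finsupp.single_eq_of_ne h01, add_zero]
        rw [Finsupp.single_eq_same, ← add_assoc]
        exact hcl.1
      | succ k =>
        have h0 : (0 : Fin (m + 2)) ≠ k.succ.succ := (Fin.succ_ne_zero _).symm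
        have h1 : (1 : Fin (m + 2)) ≠ k.succ.succ := fun hk => by
          have := congrArg Fin.val hk
          simp at this
        rw [Frame.tail_add, Frame.tail_single_succ]
        simp only [Finsupp.add_apply, Finsupp.single_eq_of_ne h0, Finsupp.single_eq_of_ne h1,
          add_zero]
        exact model_mono (layer_mono F J le_self_add _) (layer_le F J _ _) hm

end Vale.Agent.P200.Skew
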