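import Vale.Agent.P200.Skew.Free

/-!
The ordered monomials in commuting-up-to-scalars linear forms with invertible coefficient matrix.
-/

namespace Vale.Agent.P200.Skew

open Module AddMonoidAlgebra

set_option linter.unusedSectionVars false

/-- Linear forms over `D` commuting up to scalars, with an invertible coefficient matrix. -/
structure Fac (K : Type*) [Field K] (D : Type*) [DivisionRing D] [Algebra K D] (n : ℕ) where
  /-- the coefficients -/
  G : Fin n → Fin n → D
  /-- the scalars -/
  om : Fin n → Fin n → K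
  om_ne : ∀ k l, om k l ≠ 0
  comm : ∀ k l, k ≠ l → ∀ i j, G k i * G l j = om k l • (G l j * G k i)
  /-- a left inverse -/
  inv : Fin n → Fin n → D
  inv_mul : ∀ i j, ∑ k, inv i k * G k j = if i = j then 1 else 0

lemma smul_eq_single_mul {D : Type*} [DivisionRing D] {n : ℕ} (c : D) (x : Pol D n) :
    c • x = single 0 c * x := by
  induction x using AddMonoidAlgebra.induction_linear with
  | zero => simp
  | add a b ha hb => rw [smul_add, mul_add, ← ha, ← hb]
  | single m r => rw [smul_single, single_mul_single, zero_add, smul_eq_mul]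

namespace Fac

variable {K : Type*} [Field K] {D : Type*} [DivisionRing D] [Algebra K D] {n : ℕ} (F : Fac K D n)

/-- The linear forms. -/
noncomputable def lin (k : Fin n) : Pol D n := ∑ i, single (Finsupp.single i 1) (F.G k i)

lemma lin_mem (k : Fin n) : F.lin k ∈ pdeg D n 1 :=
  sum_mem fun i _ => single_mem_pdeg (Finsupp.degree_single i 1) _

lemma lin_comm {k l : Fin n} (h : k ≠ l) : F.lin k * F.lin l = F.om k l • (F.lin l * F.lin k) := by
  simp only [lin, Finset.sum_mul_sum, single_mul_single, Finset.smul_sum, smul_single]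
  rw [Finset.sum_comm (γ := Fin n) (f := fun (a b : Fin n) =>
    single (Finsupp.single a 1 + Finsupp.single b 1) (F.om k l • (F.G l a * F.G k b)))]
  refine Finset.sum_congr rfl fun i _ => Finset.sum_congr rfl fun j _ => ?_
  rw [F.comm k l h, add_comm]

/-- The product over a list. -/
noncomputable def prodL (α : Fin n → ℕ) (L : List (Fin n)) : Pol D n :=
  (L.map fun k => F.lin k ^ α k).prod

/-- An ordered monomial. -/
noncomputable def word (α : Fin n → ℕ) : Pol D n := F.prodL α (List.finRange n)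

lemma word_zero : F.word 0 = 1 := by
  simp [word, prodL]

lemma lin_pow_comm {k l : Fin n} (h : k ≠ l) (m : ℕ) :
    F.lin k * F.lin l ^ m = F.om k l ^ m • (F.lin l ^ m * F.lin k) := by
  induction m with
  | zero => simp
  | succ m ih =>
    rw [pow_succ, ← mul_assoc, ih, smul_mul_assoc, mul_assoc, lin_comm F h, mul_smul_comm,
      smul_smul, ← mul_assoc, ← pow_succ, ← pow_succ]

lemma lin_prodL (α : Fin n → ℕ) (k : Fin n) : ∀ L : List (Fin n), L.Nodup → k ∈ L →
    ∃ c : K, c ≠ 0 ∧ F.lin k * F.prodL α L = c • F.prodL (α + Pi.single k 1) L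
  | j :: L, hnd, hk => by
    obtain ⟨hj, hnd'⟩ := List.nodup_cons.1 hnd
    rcases eq_or_ne k j with rfl | hne
    · refine ⟨1, one_ne_zero, ?_⟩
      have htail : (L.map fun i => F.lin i ^ (α + Pi.single k 1 : Fin n → ℕ) i) = L.map fun i => F.lin i ^ α i :=
        List.map_congr_left fun i hi => by
          have : i ≠ k := fun e => hj (e ▸ hi)
          simp [this]
      simp only [prodL, List.map_cons, List.prod_cons, htail, one_smul, ← mul_assoc]
      congr 1
      simp [pow_succ']
    · obtain ⟨c, hc, h⟩ := lin_prodL α k L hnd' ((List.mem_cons.1 hk).resolve_left hne)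
      refine ⟨F.om k j ^ α j * c, mul_ne_zero (pow_ne_zero _ (F.om_ne _ _)) hc, ?_⟩
      have h' : F.lin k * (L.map fun i => F.lin i ^ α i).prod =
          c • (L.map fun i => F.lin i ^ (α + Pi.single k 1 : Fin n → ℕ) i).prod := h
      simp only [prodL, List.map_cons, List.prod_cons]
      rw [← mul_assoc, lin_pow_comm F hne, smul_mul_assoc, mul_assoc, h', mul_smul_comm, smul_smul]
      simp [hne.symm]

lemma lin_word (α : Fin n → ℕ) (k : Fin n) :
    ∃ c : K, c ≠ 0 ∧ F.lin k * F.word α = c • F.word (α + Pi.single k 1) :=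
  F.lin_prodL α k _ (List.nodup_finRange n) (List.mem_finRange k)

lemma exists_pred {α : Fin n → ℕ} {d : ℕ} (h : ∑ i, α i = d + 1) :
    ∃ (k : Fin n) (β : Fin n → ℕ), ∑ i, β i = d ∧ α = β + Pi.single k 1 := by
  obtain ⟨k, -, hk⟩ : ∃ k ∈ (Finset.univ : Finset (Fin n)), α k ≠ 0 :=
    Finset.exists_ne_zero_of_sum_ne_zero (by omega)
  refine ⟨k, Function.update α k (α k - 1), ?_, ?_⟩
  · have := Finset.sum_update_of_mem (s := Finset.univ) (Finset.mem_univ k) α (α k - 1)
    have h2 := Finset.sum_add_sum_compl {k} α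
    rw [Finset.sum_singleton, Finset.compl_eq_univ_sdiff] at h2
    omega
  · funext i
    rcases eq_or_ne i k with rfl | hi
    · simp; omega
    · simp [hi]

lemma word_mul : ∀ (d : ℕ) (α β : Fin n → ℕ), ∑ i, α i = d →
    ∃ c : K, c ≠ 0 ∧ F.word α * F.word β = c • F.word (α + β)
  | 0, α, β, h => by
    obtain rfl : α = 0 := funext fun i => by
      simpa using (Finset.sum_eq_zero_iff.1 h) i (Finset.mem_univ i)
    exact ⟨1, one_ne_zero, by rw [word_zero, one_mul, zero_add, one_smul]⟩
  | d + 1, α, β, h => by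
    obtain ⟨k, γ, hγ, rfl⟩ := exists_pred h
    obtain ⟨c, hc, h1⟩ := F.lin_word γ k
    obtain ⟨c', hc', h2⟩ := word_mul d γ β hγ
    obtain ⟨c'', hc'', h3⟩ := F.lin_word (γ + β) k
    refine ⟨c⁻¹ * (c' * c''), mul_ne_zero (inv_ne_zero hc) (mul_ne_zero hc' hc''), ?_⟩
    rw [show F.word (γ + Pi.single k 1) = c⁻¹ • (F.lin k * F.word γ) by
      rw [h1, smul_smul, inv_mul_cancel₀ hc, one_smul], smul_mul_assoc, mul_assoc, h2,
      mul_smul_comm, h3, smul_smul, smul_smul, show γ + β + Pi.single k 1 = γ + Pi.single k 1 + β by abel, mul_assoc]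

lemma word_single (k : Fin n) : ∃ c : K, c ≠ 0 ∧ F.word (Pi.single k 1) = c • F.lin k := by
  obtain ⟨c, hc, h⟩ := F.lin_word 0 k
  rw [word_zero, mul_one, zero_add] at h
  exact ⟨c⁻¹, inv_ne_zero hc, by rw [h, smul_smul, inv_mul_cancel₀ hc, one_smul]⟩

lemma word_lin (α : Fin n → ℕ) (k : Fin n) :
    ∃ c : K, c ≠ 0 ∧ F.word α * F.lin k = c • F.word (α + Pi.single k 1) := by
  obtain ⟨c, hc, h⟩ := F.word_single k
  obtain ⟨c', hc', h'⟩ := F.word_mul _ α (Pi.single k 1) rfl
  refine ⟨c⁻¹ * c', mul_ne_zero (inv_ne_zero hc) hc', ?_⟩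
  rw [h, mul_smul_comm] at h'
  rw [mul_smul, ← h', smul_smul, inv_mul_cancel₀ hc, one_smul]

lemma word_mem : ∀ (d : ℕ) (α : Fin n → ℕ), ∑ i, α i = d → F.word α ∈ pdeg D n d
  | 0, α, h => by
    obtain rfl : α = 0 := funext fun i => by
      simpa using (Finset.sum_eq_zero_iff.1 h) i (Finset.mem_univ i)
    rw [word_zero, AddMonoidAlgebra.one_def]
    exact single_mem_pdeg (map_zero _) _
  | d + 1, α, h => by
    obtain ⟨k, γ, hγ, rfl⟩ := exists_pred h
    obtain ⟨c, hc, h1⟩ := F.lin_word γ k
    rw [show F.word (γ + Pi.single k 1) = c⁻¹ • (F.lin k * F.word γ) by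
      rw [h1, smul_smul, inv_mul_cancel₀ hc, one_smul], add_comm d 1]
    exact Submodule.smul_of_tower_mem _ _ (mul_mem_pdeg (F.lin_mem k) (word_mem d γ hγ))

/-- The span of the monomials of degree `d` satisfying a condition. -/
noncomputable def wspan (C : (Fin n → ℕ) → Prop) (d : ℕ) : Submodule D (Pol D n) :=
  Submodule.span D (F.word '' {α | ∑ i, α i = d ∧ C α})

lemma wspan_le (C : (Fin n → ℕ) → Prop) (d : ℕ) : F.wspan C d ≤ pdeg D n d :=
  Submodule.span_le.2 (by rintro _ ⟨α, ⟨h, -⟩, rfl⟩; exact F.word_mem d α h)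

lemma single_one_mem : ∀ (d : ℕ) (e : Fin n →₀ ℕ), e.degree = d →
    single e (1 : D) ∈ F.wspan (fun _ => True) d
  | 0, e, he => by
    obtain rfl := (Finsupp.degree_eq_zero_iff e).1 he
    exact Submodule.subset_span ⟨0, ⟨by simp, trivial⟩, by rw [word_zero, AddMonoidAlgebra.one_def]⟩
  | d + 1, e, he => by
    obtain ⟨i, hi⟩ : ∃ i, e i ≠ 0 := by
      by_contra h
      push Not at h
      rw [show e = 0 from Finsupp.ext h, map_zero] at he
      omega
    have hle : Finsupp.single i 1 ≤ e := Finsupp.single_le_iff.2 (Nat.one_le_iff_ne_zero.2 hi)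
    obtain ⟨e', rfl⟩ := le_iff_exists_add.1 hle
    rw [map_add, Finsupp.degree_single] at he
    have hX : single (Finsupp.single i 1) (1 : D) = ∑ k, F.inv i k • F.lin k := by
      simp only [lin, Finset.smul_sum, smul_single, smul_eq_mul]
      rw [Finset.sum_comm]
      have : ∀ j : Fin n, ∑ k, single (Finsupp.single j 1) (F.inv i k * F.G k j) =
          single (Finsupp.single j 1) (if i = j then (1 : D) else 0) := fun j => by
        rw [← F.inv_mul i j]
        exact (map_sum (AddMonoidAlgebra.singleAddHom (R := D) (Finsupp.single j 1)) _ _).symm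
      simp only [this]
      rw [Finset.sum_eq_single i (fun j _ hj => by simp [Ne.symm hj]) (by simp), if_pos rfl]
    rw [show single (Finsupp.single i 1 + e') (1 : D) =
      single (Finsupp.single i 1) 1 * single e' 1 by rw [single_mul_single, one_mul]]
    have key : ∀ x ∈ F.wspan (fun _ => True) d,
        single (Finsupp.single i 1) (1 : D) * x ∈ F.wspan (fun _ => True) (d + 1) := by
      intro x hx
      induction hx using Submodule.span_induction with
      | mem x hx =>
        obtain ⟨α, ⟨hα, -⟩, rfl⟩ := hx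
        rw [hX, Finset.sum_mul]
        refine sum_mem fun k _ => ?_
        obtain ⟨c, -, hc⟩ := F.lin_word α k
        rw [smul_mul_assoc, hc]
        refine Submodule.smul_mem _ _ (Submodule.smul_of_tower_mem _ _
          (Submodule.subset_span ⟨_, ⟨?_, trivial⟩, rfl⟩))
        simp [Finset.sum_add_distrib, hα]
      | zero => simp
      | add a b _ _ ha hb => rw [mul_add]; exact add_mem ha hb
      | smul c a _ ha => rw [single_one_mul_smul]; exact Submodule.smul_mem _ _ ha
    exact key _ (single_one_mem d e' (by omega))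

lemma wspan_true (d : ℕ) : F.wspan (fun _ => True) d = pdeg D n d :=
  le_antisymm (F.wspan_le _ d) (Submodule.span_le.2 (by
    rintro _ ⟨e, he, rfl⟩
    exact F.single_one_mem d e he))

lemma linearIndependent_word (d : ℕ) : LinearIndependent D fun α : Expo n d => F.word α.1 := by
  rw [linearIndependent_iff_card_eq_finrank_span, Set.finrank, card_expo, ← finrank_pdeg (D := D),
    ← F.wspan_true d, wspan,
    show F.word '' {α | ∑ i, α i = d ∧ True} = Set.range (fun α : Expo n d => F.word α.1) by
      ext x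
      simp]

lemma finrank_wspan (C : (Fin n → ℕ) → Prop) (d : ℕ) :
    finrank D (F.wspan C d) = Nat.card {α : Fin n → ℕ // ∑ i, α i = d ∧ C α} := by
  classical
  let e : {α : Fin n → ℕ // ∑ i, α i = d ∧ C α} → Expo n d := fun α => ⟨α.1, α.2.1⟩
  have he : Function.Injective e := fun a b h => Subtype.ext (congrArg Subtype.val h :)
  have : Fintype {α : Fin n → ℕ // ∑ i, α i = d ∧ C α} := Fintype.ofInjective e he
  have h := finrank_span_eq_card ((F.linearIndependent_word d).comp e he)
  rw [Nat.card_eq_fintype_card, ← h, wspan,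
    show F.word '' {α | ∑ i, α i = d ∧ C α} = Set.range ((fun α : Expo n d => F.word α.1) ∘ e) by
      ext x
      simp [e]]

lemma wspan_mono {C C' : (Fin n → ℕ) → Prop} (h : ∀ α, C α → C' α) (d : ℕ) :
    F.wspan C d ≤ F.wspan C' d :=
  Submodule.span_mono (Set.image_mono fun _ hα => ⟨hα.1, h _ hα.2⟩)

/-- Conditions preserved on going up. -/
def Upper (C : (Fin n → ℕ) → Prop) : Prop := ∀ α β, C α → C (α + β)

lemma mul_mem_wspan {C : (Fin n → ℕ) → Prop} (hC : Upper C) {i j : ℕ} {x y : Pol D n}
    (hx : x ∈ F.wspan C i) (hy : y ∈ pdeg D n j) : y * x ∈ F.wspan C (j + i) := by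
  induction hx using Submodule.span_induction generalizing y with
  | mem x hx =>
    obtain ⟨α, ⟨hα, hCα⟩, rfl⟩ := hx
    rw [← F.wspan_true j] at hy
    induction hy using Submodule.span_induction with
    | mem y hy =>
      obtain ⟨β, ⟨hβ, -⟩, rfl⟩ := hy
      obtain ⟨c, -, hc⟩ := F.word_mul _ β α rfl
      rw [hc]
      exact Submodule.smul_of_tower_mem _ _ (Submodule.subset_span
        ⟨_, ⟨by simp [Finset.sum_add_distrib, hα, hβ], by rw [add_comm]; exact hC α β hCα⟩, rfl⟩)
    | zero => simp
    | add a b _ _ ha hb => rw [add_mul]; exact add_mem ha hb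
    | smul c a _ ha => rw [smul_mul_assoc]; exact Submodule.smul_mem _ _ ha
  | zero => simp
  | add a b _ _ ha hb => rw [mul_add]; exact add_mem (ha hy) (hb hy)
  | smul c a _ ha =>
    have h : c • a = single 0 c * a := smul_eq_single_mul c a
    rw [h, ← mul_assoc]
    refine ha ?_
    have := mul_mem_pdeg hy (single_mem_pdeg (D := D) (n := n) (map_zero _) c)
    simpa using this

lemma act_mem_wspan {C : (Fin n → ℕ) → Prop} (hC : Upper C) {i j : ℕ} {x : Pol D n}
    {u : MvPolynomial (Fin n) K} (hx : x ∈ F.wspan C i) (hu : u.IsHomogeneous j) :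
    act K D n u x ∈ F.wspan C (i + j) := by
  rw [act_apply, iota_comm, add_comm i j]
  exact F.mul_mem_wspan hC hx (iota_mem_pdeg hu)

lemma lin_mem_wspan {C : (Fin n → ℕ) → Prop} (hC : Upper C) {i : ℕ} {x : Pol D n}
    (hx : x ∈ F.wspan C i) (k : Fin n) : x * F.lin k ∈ F.wspan C (i + 1) := by
  induction hx using Submodule.span_induction with
  | mem x hx =>
    obtain ⟨α, ⟨hα, hCα⟩, rfl⟩ := hx
    obtain ⟨c, -, hc⟩ := F.word_lin α k
    rw [hc]
    exact Submodule.smul_of_tower_mem _ _ (Submodule.subset_span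
      ⟨_, ⟨by simp [Finset.sum_add_distrib, hα], hC α _ hCα⟩, rfl⟩)
  | zero => simp
  | add a b _ _ ha hb => rw [add_mul]; exact add_mem ha hb
  | smul c a _ ha => rw [smul_mul_assoc]; exact Submodule.smul_mem _ _ ha

end Fac

end Vale.Agent.P200.Skew
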