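import Vale.Agent.P200.Skew.Frame
import Vale.Agent.P200.Skew.Words

/-!
From a factorisation modulo forms of degree `p` to a frame with an invertible block of
coefficients of the `p`-th powers.
-/

namespace Vale.Agent.P200.Skew

open MvPolynomial Module
open scoped TensorProduct

universe u

variable {K : Type u} [Field K] {D : Type u} [DivisionRing D] [Algebra K D]

section

variable {σ : Type*} {ι : Type*} [Fintype ι]

lemma comp_lTensor_mem {f : ι → MvPolynomial σ K} {p : ℕ} (hf : ∀ l, (f l).IsHomogeneous p)
    (x : D ⊗[K] (Ideal.span (Set.range f)).restrictScalars K) :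
    comp K D σ p (LinearMap.lTensor D ((Ideal.span (Set.range f)).restrictScalars K).subtype x) ∈
      Submodule.span D (Set.range fun l => poly (D := D) (f l)) := by
  induction x using TensorProduct.induction_on with
  | zero => simp
  | add a b ha hb => rw [map_add, map_add]; exact add_mem ha hb
  | tmul d u =>
    obtain ⟨c, hc⟩ := (Submodule.mem_span_range_iff_exists_fun _).1 u.2
    simp only [LinearMap.lTensor_tmul, Submodule.subtype_apply, comp,
      TensorProduct.AlgebraTensorModule.map_tmul, LinearMap.id_apply]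
    rw [← hc, map_sum, TensorProduct.tmul_sum]
    refine sum_mem fun l _ => ?_
    rw [smul_eq_mul, mul_comm, homogeneousComponent_mul_left (hf l), if_pos le_rfl, Nat.sub_self,
      homogeneousComponent_zero, mul_comm, ← smul_eq_C_mul, TensorProduct.tmul_smul]
    refine Submodule.smul_of_tower_mem _ _ ?_
    rw [show d ⊗ₜ[K] f l = d • poly (D := D) (f l) by simp [poly, TensorProduct.smul_tmul']]
    exact Submodule.smul_mem _ _ (Submodule.subset_span ⟨l, rfl⟩)

/-- Elements of degree `p` vanishing modulo forms of degree `p` are combinations of them. -/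
lemma exists_coeff_of_map_eq_zero {f : ι → MvPolynomial σ K} {p : ℕ}
    (hf : ∀ l, (f l).IsHomogeneous p) {t : D ⊗[K] MvPolynomial σ K} (ht : t ∈ TD D σ K p)
    (h : Algebra.TensorProduct.map (AlgHom.id K D)
      (Ideal.Quotient.mkₐ K (Ideal.span (Set.range f))) t = 0) :
    ∃ z : ι → D, t = ∑ l, z l • poly (f l) := by
  have hex : Function.Exact ((Ideal.span (Set.range f)).restrictScalars K).subtype (Quad.mkA f) :=
    fun x => ⟨fun hx => ⟨⟨x, Ideal.Quotient.eq_zero_iff_mem.1 hx⟩, rfl⟩,
      fun ⟨y, hy⟩ => hy ▸ Ideal.Quotient.eq_zero_iff_mem.2 y.2⟩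
  have key : ∀ t : D ⊗[K] MvPolynomial σ K, LinearMap.lTensor D (Quad.mkA f) t =
      Algebra.TensorProduct.map (AlgHom.id K D)
        (Ideal.Quotient.mkₐ K (Ideal.span (Set.range f))) t := by
    intro t
    induction t using TensorProduct.induction_on with
    | zero => simp
    | tmul a b => rfl
    | add a b ha hb => rw [map_add, map_add, ha, hb]
  obtain ⟨x, hx⟩ := ((lTensor_exact D hex (Ideal.Quotient.mkₐ_surjective K _)) t).1 (by rw [key, h])
  have hmem := comp_lTensor_mem hf x
  rw [hx, comp_of_mem ht, if_pos rfl] at hmem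
  obtain ⟨z, hz⟩ := (Submodule.mem_span_range_iff_exists_fun D).1 hmem
  exact ⟨z, hz.symm⟩

end

/-- Choose `m` vectors of a spanning family of an `m`-dimensional space forming a basis. -/
lemma exists_sub_basis {V : Type*} [AddCommGroup V] [Module D V] [FiniteDimensional D V] {m : ℕ}
    (hV : finrank D V = m) {ι : Type*} [Finite ι] (v : ι → V)
    (hv : Submodule.span D (Set.range v) = ⊤) :
    ∃ e : Fin m → ι, Function.Injective e ∧ LinearIndependent D (v ∘ e) ∧
      Submodule.span D (Set.range (v ∘ e)) = ⊤ := by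
  obtain ⟨κ, a, ha, hspan, hli⟩ := exists_linearIndependent' D v
  have : Finite κ := Finite.of_injective a ha
  have : Fintype κ := Fintype.ofFinite κ
  have hcard : Fintype.card κ = m := by
    rw [← finrank_span_eq_card hli, hspan, hv, finrank_top, hV]
  let ε := (Fintype.equivFinOfCardEq hcard).symm
  refine ⟨a ∘ ε, ha.comp ε.injective, hli.comp ε ε.injective, ?_⟩
  rw [← hv, ← hspan, ← Function.comp_assoc, EquivLike.range_comp]

/-- Left multiplication and the change to monoid algebras. -/
noncomputable def toPol (K D : Type u) [Field K] [DivisionRing D] [Algebra K D] (n : ℕ) : D ⊗[K] MvPolynomial (Fin n) K →ₐ[K] Pol D n :=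
  Algebra.TensorProduct.lift AddMonoidAlgebra.singleZeroAlgHom
    (AlgHom.mk (iota K D n) fun r => by
      rw [MvPolynomial.algebraMap_eq]
      show iota K D n (C r) = algebraMap K (Pol D n) r
      rw [show (C r : MvPolynomial (Fin n) K) = monomial 0 r from rfl, iota_monomial]
      rfl)
    fun d u => iota_comm u _

lemma toPol_tmul {n : ℕ} (d : D) (u : MvPolynomial (Fin n) K) :
    toPol K D n (d ⊗ₜ u) = AddMonoidAlgebra.single 0 d * iota K D n u :=
  Algebra.TensorProduct.lift_tmul _ _ _ d u

lemma toPol_smul {n : ℕ} (c : D) (t : D ⊗[K] MvPolynomial (Fin n) K) :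
    toPol K D n (c • t) = c • toPol K D n t := by
  rw [← scal_mul, map_mul, smul_eq_single_mul]
  congr 1
  rw [scal, toPol_tmul, map_one, mul_one]

lemma word_pure {n : ℕ} (F : Fac K D n) (k : Fin n) (e : ℕ) :
    F.word (Pi.single k e) = F.lin k ^ e := by
  rw [Fac.word, Fac.prodL, List.prod_map_eq_pow_single k _ fun j hj _ => by simp [hj],
    List.count_eq_one_of_mem (List.nodup_finRange n) (List.mem_finRange k)]
  simp

/-- The frame of a factorisation modulo forms of degree `p`. -/
theorem exists_frame {m p : ℕ} (hp : 0 < p) {f : Fin (m + 2) → MvPolynomial (Fin (m + 2)) K}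
    (hf : ∀ l, (f l).IsHomogeneous p) (g : Fin (m + 2) → Fin (m + 2) → D)
    (om : Fin (m + 2) → Fin (m + 2) → K) (hom : ∀ k l, om k l ≠ 0)
    (hcomm : ∀ k l, k ≠ l → ∀ i j, g k i * g l j = om k l • (g l j * g k i))
    (hpow : ∀ k, (∑ i, g k i ⊗ₜ[K] Quad.mkA f (X i)) ^ p = 0)
    (E : Fin (m + 2) → Fin (m + 2) → D)
    (hE : ∀ i j, ∑ k, E i k * g k j = if i = j then 1 else 0) :
    ∃ (F : Frame K D m) (e : Fin m → Fin (m + 2)) (z : Fin m → Fin (m + 2) → D)
      (W : Fin m → Fin m → D), Function.Injective e ∧ (∀ k, F.g k = g (e k)) ∧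
      (∀ k, F.phi k ^ p = ∑ l, z k l • poly (f l)) ∧
      (∀ a b, ∑ k, W a k * z k b.succ.succ = if a = b then 1 else 0) ∧
      ∀ a b, ∑ k, z a k.succ.succ * W k b = if a = b then 1 else 0 := by
  classical
  let F0 : Fac K D (m + 2) := ⟨g, om, hom, hcomm, E, hE⟩
  let Φ : Fin (m + 2) → D ⊗[K] MvPolynomial (Fin (m + 2)) K := fun k => ∑ i, g k i ⊗ₜ[K] X i
  have hΦ1 : ∀ k, Φ k ∈ TD D (Fin (m + 2)) K 1 := fun k =>
    sum_mem fun i _ => tmul_mem_ext _ (isHomogeneous_X K i)
  have hΦe : ∀ k (j : ℕ), Φ k ^ j ∈ TD D (Fin (m + 2)) K j := fun k j => by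
    induction j with
    | zero => simpa using one_mem_TD
    | succ j ih => rw [pow_succ]; exact mul_mem_TD ih (hΦ1 k)
  have hzex : ∀ k, ∃ z : Fin (m + 2) → D, Φ k ^ p = ∑ l, z l • poly (f l) := fun k => by
    refine exists_coeff_of_map_eq_zero hf (hΦe k p) ?_
    rw [map_pow, map_sum]
    exact hpow k
  choose z0 hz0 using hzex
  have hT : ∀ k, toPol K D (m + 2) (Φ k) = F0.lin k := fun k => by
    simp only [Φ, map_sum, Fac.lin]
    refine Finset.sum_congr rfl fun i _ => ?_
    rw [toPol_tmul, X, iota_monomial, map_one, AddMonoidAlgebra.single_mul_single, zero_add,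
      mul_one]
  have hz_li : LinearIndependent D z0 := by
    rw [Fintype.linearIndependent_iff]
    intro c hc
    have h0 : ∑ k, c k • Φ k ^ p = 0 := by
      simp only [hz0, Finset.smul_sum, smul_smul]
      rw [Finset.sum_comm]
      refine Finset.sum_eq_zero fun l _ => ?_
      rw [← Finset.sum_smul]
      have := congrFun hc l
      simp only [Finset.sum_apply, Pi.smul_apply, smul_eq_mul, Pi.zero_apply] at this
      rw [this, zero_smul]
    have h1 : ∑ k, c k • F0.word (Pi.single k p) = 0 := by
      have := congrArg (toPol K D (m + 2)) h0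
      simpa only [map_sum, map_zero, toPol_smul, map_pow, hT, ← word_pure] using this
    let emb : Fin (m + 2) → Expo (m + 2) p := fun k => ⟨Pi.single k p, by simp⟩
    have hemb : Function.Injective emb := fun a b h => by
      by_contra hne
      have := congrFun (congrArg Subtype.val h) a
      simp only [emb, Pi.single_eq_same, Pi.single_eq_of_ne hne] at this
      omega
    exact Fintype.linearIndependent_iff.1 ((F0.linearIndependent_word p).comp emb hemb) c h1
  have hz_span : Submodule.span D (Set.range z0) = ⊤ :=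
    hz_li.span_eq_top_of_card_eq_finrank' (by simp)
  let π : (Fin (m + 2) → D) →ₗ[D] (Fin m → D) :=
    LinearMap.pi fun b => LinearMap.proj b.succ.succ
  have hπ : Function.Surjective π := fun v =>
    ⟨Fin.cons 0 (Fin.cons 0 v), funext fun b => by simp [π]⟩
  obtain ⟨e, he, hli, hsp⟩ := exists_sub_basis (D := D) (by simp : finrank D (Fin m → D) = m)
    (π ∘ z0) (by rw [Set.range_comp, ← Submodule.map_span, hz_span, Submodule.map_top,
      LinearMap.range_eq_top.2 hπ])
  have hW : ∀ a : Fin m, ∃ w : Fin m → D, ∑ k, w k • π (z0 (e k)) = Pi.single a 1 := fun a =>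
    (Submodule.mem_span_range_iff_exists_fun D).1 (by
      rw [show (fun k => π (z0 (e k))) = (π ∘ z0) ∘ e from rfl, hsp]; trivial)
  choose W hW using hW
  have hW1 : ∀ a b, ∑ k, W a k * z0 (e k) b.succ.succ = if a = b then 1 else 0 := fun a b => by
    have := congrFun (hW a) b
    simpa [π, Finset.sum_apply, Pi.single_apply, eq_comm] using this
  have hW2 : ∀ a b, ∑ k, z0 (e a) k.succ.succ * W k b = if a = b then 1 else 0 := by
    intro a
    have h : ∑ b, ((∑ k, z0 (e a) k.succ.succ * W k b) - if a = b then 1 else 0) • π (z0 (e b)) =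
        0 := by
      simp only [sub_smul, Finset.sum_sub_distrib, Finset.sum_smul, ite_smul, one_smul, zero_smul,
        Finset.sum_ite_eq, Finset.mem_univ, if_true, sub_eq_zero]
      rw [Finset.sum_comm]
      simp only [mul_smul, ← Finset.smul_sum, hW]
      funext b
      simp [π, Finset.sum_apply, Pi.single_apply]
    intro b
    exact sub_eq_zero.1 (Fintype.linearIndependent_iff.1 hli _ h b)
  -- the central forms
  have hg_span : Submodule.span D (Set.range g) = ⊤ := eq_top_iff.2 fun v _ => by
    have hv : v = ∑ i, v i • (∑ k, E i k • g k) := by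
      funext j
      simp [Finset.sum_apply, hE]
    rw [hv]
    exact sum_mem fun i _ => Submodule.smul_mem _ _
      (sum_mem fun k _ => Submodule.smul_mem _ _ (Submodule.subset_span ⟨k, rfl⟩))
  have hg_li : LinearIndependent D g :=
    linearIndependent_of_top_le_span_of_card_eq_finrank hg_span.ge (by simp)
  set R := Submodule.span D (Set.range (g ∘ e)) with hR
  have hRdim : finrank D R = m := by
    rw [hR, finrank_span_eq_card (hg_li.comp e he), Fintype.card_fin]
  have hQdim : finrank D ((Fin (m + 2) → D) ⧸ R) = 2 := by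
    have := R.finrank_quotient_add_finrank
    rw [hRdim, Module.finrank_fin_fun] at this
    omega
  let δ : Fin (m + 2) → Fin (m + 2) → D := fun i => Pi.single i 1
  have hδ : Submodule.span D (Set.range δ) = ⊤ := eq_top_iff.2 fun v _ => by
    rw [pi_eq_sum_univ' v]
    exact sum_mem fun i _ => Submodule.smul_mem _ _ (Submodule.subset_span ⟨i, rfl⟩)
  obtain ⟨j, -, -, hjsp⟩ := exists_sub_basis (D := D) hQdim (R.mkQ ∘ δ) (by
    rw [Set.range_comp, ← Submodule.map_span, hδ, Submodule.map_top, Submodule.range_mkQ])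
  let Ψ : (Fin (m + 2) → D) →ₗ[D] D ⊗[K] MvPolynomial (Fin (m + 2)) K :=
    Fintype.linearCombination D fun i => poly (X i)
  have hΨg : ∀ k, Ψ (g k) = Φ k := fun k => by
    simp [Ψ, Φ, Fintype.linearCombination_apply, poly, TensorProduct.smul_tmul']
  have hΨδ : ∀ i, Ψ (δ i) = poly (X i) := fun i => by
    simp [Ψ, δ, Fintype.linearCombination_apply, Pi.single_apply]
  have hspans : ∀ i, ∃ (c : Fin m → D) (b : Fin 2 → D),
      poly (D := D) (X i : MvPolynomial (Fin (m + 2)) K) =
        (∑ k, scal (c k) * Φ (e k)) + ∑ t, scal (b t) * poly (X (j t)) := by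
    intro i
    obtain ⟨b, hb⟩ := (Submodule.mem_span_range_iff_exists_fun D).1
      (show R.mkQ (δ i) ∈ Submodule.span D (Set.range ((R.mkQ ∘ δ) ∘ j)) by rw [hjsp]; trivial)
    have hmem : δ i - ∑ t, b t • δ (j t) ∈ R := by
      rw [← Submodule.Quotient.mk_eq_zero, ← Submodule.mkQ_apply, map_sub, map_sum]
      simp only [map_smul]
      exact sub_eq_zero.2 hb.symm
    obtain ⟨c, hc⟩ := (Submodule.mem_span_range_iff_exists_fun D).1 hmem
    refine ⟨c, b, ?_⟩
    have := congrArg Ψ hc
    simp only [map_sum, map_smul, map_sub, Function.comp_apply, hΨg, hΨδ] at this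
    simp only [scal_mul]
    rw [this, sub_add_cancel]
  let F : Frame K D m :=
    { g := g ∘ e
      y := fun t => X (j t)
      y_hom := fun t => isHomogeneous_X K _
      q := fun k l => algebraMap K D (om (e k) (e l))
      q_central := fun k l d => Algebra.commutes _ d
      q_ne := fun k l => (map_ne_zero _).2 (hom _ _)
      comm := fun k l hkl => by
        rw [scal_mul]
        simp only [Function.comp_apply, Finset.sum_mul_sum, Algebra.TensorProduct.tmul_mul_tmul,
          Finset.smul_sum, TensorProduct.smul_tmul', smul_eq_mul, ← Algebra.smul_def]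
        rw [Finset.sum_comm (γ := Fin (m + 2))]
        refine Finset.sum_congr rfl fun a _ => Finset.sum_congr rfl fun b _ => ?_
        rw [hcomm _ _ (fun h => hkl (he h)), mul_comm (X a : MvPolynomial (Fin (m + 2)) K)]
      spans := hspans }
  exact ⟨F, e, fun k => z0 (e k), W, he, fun k => rfl, fun k => hz0 (e k), hW1, hW2⟩

end Vale.Agent.P200.Skew
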