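import Vale.Agent.P200.Cyc.Model
import Vale.Agent.P200.Skew.Models
import Vale.Agent.P200.Skew.Twist

/-!
Models for two forms of lower degree followed by forms of degree `p`, from linear factorisations
of regular sequences of degree `p`.
-/

namespace Vale.Agent.P200.Skew

open MvPolynomial Module
open scoped TensorProduct

universe u

variable {K : Type u} [Field K]

/-- Every regular sequence of forms of degree `p` in `n` variables has commuting-up-to-scalars
linear factorisations over a division ring. -/
def Factorises (K : Type u) [Field K] (n p : ℕ) : Prop :=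
  ∀ f : Fin n → MvPolynomial (Fin n) K, (∀ i, (f i).IsHomogeneous p) →
    RegList ⊥ (List.ofFn f) →
    ∃ (D : Type u) (_ : DivisionRing D) (_ : Algebra K D) (g : Fin n → Fin n → D)
      (om : Fin n → Fin n → K) (E : Fin n → Fin n → D),
      (∀ k l, om k l ≠ 0) ∧
      (∀ k l, k ≠ l → ∀ i j, g k i * g l j = om k l • (g l j * g k i)) ∧
      (∀ k, (∑ i, g k i ⊗ₜ[K] Quad.mkA f (X i)) ^ p = 0) ∧
      ∀ i j, ∑ k, E i k * g k j = if i = j then 1 else 0

lemma perm_ofFn_succAbove {α : Type*} {n : ℕ} (f : Fin (n + 1) → α) (i : Fin (n + 1)) :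
    List.Perm (List.ofFn f) (List.ofFn (fun k => f (i.succAbove k)) ++ [f i]) := by
  refine List.Perm.trans ?_ (List.perm_append_singleton _ _).symm
  rw [← Multiset.coe_eq_coe, ← Multiset.cons_coe]
  have h1 : ∀ {m : ℕ} (g : Fin m → α), (↑(List.ofFn g) : Multiset α) = Finset.univ.val.map g :=
    fun g => (Fin.univ_val_map g).symm
  rw [h1, h1, Fin.univ_succAbove n i, Finset.cons_val, Multiset.map_cons, Finset.map_val,
    Multiset.map_map]
  rfl

/-- One form of a regular sequence filling all variables can be raised to any higher degree. -/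
lemma exists_pad [Infinite K] {n : ℕ} {f : Fin (n + 1) → MvPolynomial (Fin (n + 1)) K}
    {a : Fin (n + 1) → ℕ} (ha : ∀ i, 0 < a i) (hf : ∀ i, (f i).IsHomogeneous (a i))
    (hreg : RegList ⊥ (List.ofFn f)) (i : Fin (n + 1)) {p : ℕ} (hp : a i ≤ p) :
    ∃ h : MvPolynomial (Fin (n + 1)) K, h.IsHomogeneous (p - a i) ∧
      (∀ j, (Function.update f i (f i * h) j).IsHomogeneous (Function.update a i p j)) ∧
      RegList ⊥ (List.ofFn (Function.update f i (f i * h))) := by
  have hpos : ∀ g ∈ List.ofFn f, HomogPos g := fun g hg => by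
    obtain ⟨j, rfl⟩ := List.mem_ofFn.1 hg
    exact ⟨a j, ha j, hf j⟩
  set A := List.ofFn fun k => f (i.succAbove k) with hA
  have hposA : ∀ g ∈ A, HomogPos g := fun g hg => by
    obtain ⟨j, rfl⟩ := List.mem_ofFn.1 hg
    exact ⟨a _, ha _, hf _⟩
  obtain ⟨hregA, hni⟩ := regList_concat.1
    (regList_perm (perm_ofFn_succAbove f i) hpos homogI_bot hreg)
  rw [sup_bot_eq] at hni
  obtain ⟨l, hl, hln⟩ := exists_linear_nzd (regList_socFree hposA (by simp [A]) hregA)
  refine ⟨l ^ (p - a i), by simpa using hl.pow (p - a i), fun j => ?_, ?_⟩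
  · rcases eq_or_ne j i with rfl | hj
    · rw [Function.update_self, Function.update_self]
      have h := (hf j).mul (hl.pow (p - a j))
      rwa [show a j + 1 * (p - a j) = p by omega] at h
    · rw [Function.update_of_ne hj, Function.update_of_ne hj]
      exact hf j
  · have hnp : ∀ k, Nzd (Ideal.ofList A) (f i * l ^ k) := fun k => by
      induction k with
      | zero => simpa using hni
      | succ k ih =>
        intro u hu
        rw [pow_succ, ← mul_assoc, mul_assoc] at hu
        exact hln u (ih _ hu)
    have hperm : List.Perm (A ++ [f i * l ^ (p - a i)])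
        (List.ofFn (Function.update f i (f i * l ^ (p - a i)))) := by
      have h := perm_ofFn_succAbove (Function.update f i (f i * l ^ (p - a i))) i
      rw [Function.update_self, show (fun k => Function.update f i (f i * l ^ (p - a i))
        (i.succAbove k)) = fun k => f (i.succAbove k) from funext fun k =>
          Function.update_of_ne (Fin.succAbove_ne i k) _ _] at h
      exact h.symm
    refine regList_perm hperm (fun g hg => ?_) homogI_bot
      (regList_concat.2 ⟨hregA, by rw [sup_bot_eq]; exact hnp _⟩)
    rcases List.mem_append.1 hg with h | h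
    · exact hposA g h
    · rw [List.mem_singleton.1 h]
      refine ⟨p, lt_of_lt_of_le (ha i) hp, ?_⟩
      have h := (hf i).mul (hl.pow (p - a i))
      rwa [show a i + 1 * (p - a i) = p by omega] at h

/-- Models for two forms of degree at most `p` and forms of degree `p`. -/
theorem models_two_low [Infinite K] {m p : ℕ} (hfac : Factorises K (m + 2) p)
    {a : Fin (m + 2) → ℕ} (ha : ∀ i, 0 < a i) (h01 : a 0 ≤ a 1) (h1p : a 1 ≤ p)
    (htail : ∀ k : Fin m, a k.succ.succ = p) : Cyc.Models K a := by
  classical
  intro f hf hreg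
  have hp : 0 < p := lt_of_lt_of_le (ha 1) h1p
  have hne : (1 : Fin (m + 2)) ≠ 0 := fun h => by
    have := congrArg Fin.val h
    simp at this
  obtain ⟨h₀, hh₀, hf₁, hreg₁⟩ := exists_pad ha hf hreg 0 (h01.trans h1p)
  have ha₁ : ∀ j, 0 < Function.update a 0 p j := fun j => by
    rcases eq_or_ne j 0 with rfl | hj
    · rwa [Function.update_self]
    · rw [Function.update_of_ne hj]; exact ha j
  obtain ⟨h₁, -, hf₂, hreg₂⟩ := exists_pad ha₁ hf₁ hreg₁ 1
    (show Function.update a 0 p 1 ≤ p by rw [Function.update_of_ne hne]; exact h1p)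
  rw [Function.update_of_ne hne] at hf₂ hreg₂
  set f' := Function.update (Function.update f 0 (f 0 * h₀)) 1 (f 1 * h₁) with hf'def
  have h2ne0 : ∀ k : Fin m, (k.succ.succ : Fin (m + 2)) ≠ 0 := fun k => Fin.succ_ne_zero _
  have h2ne1 : ∀ k : Fin m, (k.succ.succ : Fin (m + 2)) ≠ 1 := fun k h => by
    have := congrArg Fin.val h
    simp at this
  have hdeg : ∀ j, Function.update (Function.update a 0 p) 1 p j = p := by
    intro j
    induction j using Fin.cases with
    | zero => rw [Function.update_of_ne hne.symm, Function.update_self]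
    | succ j =>
      induction j using Fin.cases with
      | zero =>
        show Function.update (Function.update a 0 p) 1 p 1 = p
        rw [Function.update_self]
      | succ k => rw [Function.update_of_ne (h2ne1 k), Function.update_of_ne (h2ne0 k), htail k]
  have hf' : ∀ j, (f' j).IsHomogeneous p := fun j => by
    have := hf₂ j
    rwa [hdeg] at this
  obtain ⟨D, _, _, g, om, E, hom, hcomm, hpow, hE⟩ := hfac f' hf' hreg₂
  obtain ⟨F, e, z, W, -, -, hz, hWz, -⟩ := exists_frame hp hf' g om hom hcomm hpow E hE
  refine exists_models F f a hf (ha 0) h01 (fun k l => z k l.succ.succ) W hWz p hp htail ?_ ?_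
  · intro k
    rw [hz k, Fin.sum_univ_succ, Fin.sum_univ_succ]
    have ht : ∀ l : Fin m, f' l.succ.succ = f l.succ.succ := fun l => by
      rw [hf'def, Function.update_of_ne (h2ne1 l), Function.update_of_ne (h2ne0 l)]
    simp only [ht]
    rw [← add_assoc, add_sub_cancel_right]
    have hs01 : (Fin.succ 0 : Fin (m + 2)) = 1 := rfl
    refine add_mem (Submodule.smul_mem _ _ (Submodule.subset_span ⟨_, ?_, rfl⟩))
      (Submodule.smul_mem _ _ (Submodule.subset_span ⟨_, ?_, rfl⟩))
    · refine mem_degPart.2 ⟨hf' 0, ?_⟩
      rw [hf'def, Function.update_of_ne hne.symm, Function.update_self]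
      exact Ideal.mul_mem_right _ _ (Ideal.subset_span (by simp))
    · rw [hs01]
      refine mem_degPart.2 ⟨hf' 1, ?_⟩
      rw [hf'def, Function.update_self]
      exact Ideal.mul_mem_right _ _ (Ideal.subset_span (by simp))
  · refine ⟨∑ i, a i, fun q hq => ?_⟩
    have hH := Cyc.finrank_degPart_forms ha hf hreg (∑ i, a i)
    have hout : (Cyc.outBox a (∑ i, a i)).card =
        finrank K (homogeneousSubmodule (Fin (m + 2)) K (∑ i, a i)) := by
      rw [Quad.finrank_homog, ← Nat.card_eq_finsetCard]
      refine Nat.card_congr (Equiv.subtypeEquivRight fun e => ?_)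
      rw [Cyc.mem_outBox]
      refine ⟨fun h => h.1, fun h => ⟨h, ?_⟩⟩
      by_contra hcon
      push Not at hcon
      have := Finset.sum_lt_sum_of_nonempty (s := (Finset.univ : Finset (Fin (m + 2))))
        Finset.univ_nonempty fun i _ => hcon i
      rw [← Finsupp.degree_eq_sum, h] at this
      omega
    have hle : degPart (∑ i, a i) (Ideal.span (Set.range f)) ≤
        homogeneousSubmodule (Fin (m + 2)) K (∑ i, a i) := fun u hu =>
      (mem_homogeneousSubmodule _ _).2 (mem_degPart.1 hu).1
    have heq := Submodule.eq_of_le_of_finrank_eq hle (hH.trans hout)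
    rw [← heq] at hq
    exact (mem_degPart.1 hq).2

end Vale.Agent.P200.Skew
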