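import Vale.Agent.P200.Prime.Factor
import Vale.Agent.P200.Cyc.Reduce
import Vale.Agent.P200.Box.LexPlusPowers
import Vale.Agent.P200.Skew.TwoLow

/-!
Two forms of degree at most `p` and any number of forms of degree `p`, in characteristic `p`.
-/

namespace Vale.Agent.P200.Skew

open MvPolynomial Module
open scoped TensorProduct

universe u

variable {K : Type u} [Field K] {p : ℕ}

/-- Linear factorisations in characteristic `p`. -/
theorem factorises_prime [IsAlgClosed K] [Fact p.Prime] [CharP K p] (n : ℕ) : Factorises K n p := by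
  intro f hf hreg
  obtain ⟨D, iD, iA, g, hcomm, hpow, E, hE⟩ := Prime.exists_factorisation hf hreg
  exact ⟨D, iD, iA, g, fun _ _ => 1, E, fun _ _ => one_ne_zero,
    fun k l h i j => by rw [one_smul]; exact hcomm k l h i j, hpow, hE⟩

/-- In characteristic `p`, an ideal containing a regular sequence of two forms of degree at most
`p` and forms of degree `p`, as many as variables, has lex-plus-powers sets closed under the
variables. -/
theorem exists_lpp_two_low [Fact p.Prime] [CharP K p] {m : ℕ} {a : Fin (m + 2) → ℕ}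
    (hmono : Monotone a) (ha : ∀ i, 0 < a i) (h1p : a 1 ≤ p)
    (htail : ∀ k : Fin m, a k.succ.succ = p)
    {f : Fin (m + 2) → MvPolynomial (Fin (m + 2)) K}
    (hf : ∀ i, (f i).IsHomogeneous (a i)) (hreg : RegList ⊥ (List.ofFn f))
    {I : Ideal (MvPolynomial (Fin (m + 2)) K)} (hI : HomogI I) (hfI : ∀ i, f i ∈ I) :
    ∃ T : ℕ → Finset (Fin (m + 2) →₀ ℕ), ∀ d,
      (∀ e ∈ T d, e.degree = d) ∧
      (∀ e : Fin (m + 2) →₀ ℕ, e.degree = d → (∃ i, a i ≤ e i) → e ∈ T d) ∧
      (∀ e ∈ T d, ∀ e' : Fin (m + 2) →₀ ℕ, e'.degree = d →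
        (∀ i, e i < a i) → (∀ i, e' i < a i) → toLex e < toLex e' → e' ∈ T d) ∧
      (T d).card = finrank K (degPart d I) ∧
      ∀ e ∈ T d, ∀ v, e + Finsupp.single v 1 ∈ T (d + 1) := by
  have : CharP (AlgebraicClosure K) p :=
    charP_of_injective_algebraMap (algebraMap K (AlgebraicClosure K)).injective p
  obtain ⟨s, hs, hd⟩ := Cyc.exists_monomialIdeal ha
    (models_two_low (factorises_prime _) ha (hmono (Fin.zero_le _)) h1p htail) le_rfl hf hreg hI hfI
  obtain ⟨T, hT⟩ := Box.exists_lpp K le_rfl hmono s hs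
  exact ⟨T, fun d => ⟨(hT d).1, fun e he ⟨i, hi⟩ => (hT d).2.1 e he ⟨i, by simpa using hi⟩,
    fun e he e' hd' h h' => (hT d).2.2.1 e he e' hd' (fun i => by simpa using h i)
      (fun i => by simpa using h' i), (hT d).2.2.2.1.trans (hd d), (hT d).2.2.2.2⟩⟩

end Vale.Agent.P200.Skew
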