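import Mathlib

/-!
Clements-Lindstrom for left ideals of a binary polynomial ring over a division ring.
A binary form of degree `d` is stored as a polynomial of degree less than `d + 1`.
-/

namespace Vale.Agent.P200.Skew

open Polynomial Module Submodule

variable {D : Type*} [DivisionRing D]

/-- Binary forms with `s` coefficients. -/
noncomputable def BF (D : Type*) [DivisionRing D] (s : ℕ) : Submodule D (Polynomial D) :=
  Polynomial.degreeLT D s

/-- Right multiplication. -/
noncomputable def rmul (g : Polynomial D) : Polynomial D →ₗ[D] Polynomial D :=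
  LinearMap.mulRight D g

lemma rmul_apply (g u : Polynomial D) : rmul g u = u * g := rfl

lemma rmul_injective {g : Polynomial D} (hg : g ≠ 0) : Function.Injective (rmul g) :=
  fun _ _ h => mul_right_cancel₀ hg h

/-- The multiples of degree one more. -/
noncomputable def up (W : Submodule D (Polynomial D)) : Submodule D (Polynomial D) :=
  W ⊔ W.map (rmul Polynomial.X)

/-- Left multiples of `g` by forms with `s` coefficients. -/
noncomputable def mult (g : Polynomial D) (s : ℕ) : Submodule D (Polynomial D) :=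
  (BF D s).map (rmul g)

lemma mem_BF {s : ℕ} {u : Polynomial D} : u ∈ BF D s ↔ u.degree < (s : ℕ) :=
  Polynomial.mem_degreeLT

lemma mem_BF_coeff {s : ℕ} {u : Polynomial D} : u ∈ BF D s ↔ ∀ i, s ≤ i → u.coeff i = 0 := by
  rw [mem_BF, degree_lt_iff_coeff_zero]

instance (s : ℕ) : FiniteDimensional D (BF D s) :=
  Module.Finite.equiv (Polynomial.degreeLTEquiv D s).symm

lemma finrank_BF (s : ℕ) : finrank D (BF D s) = s := by
  rw [BF, (Polynomial.degreeLTEquiv D s).finrank_eq, Module.finrank_fin_fun]

lemma BF_zero : BF D 0 = ⊥ := finrank_eq_zero.mp (finrank_BF 0)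

lemma finite_of_le_BF {W : Submodule D (Polynomial D)} {s : ℕ} (h : W ≤ BF D s) :
    FiniteDimensional D W := finiteDimensional_of_le h

lemma X_mul_mem_BF {s : ℕ} {u : Polynomial D} (h : u ∈ BF D s) :
    u * Polynomial.X ∈ BF D (s + 1) := by
  rw [mem_BF_coeff] at h ⊢
  intro i hi
  obtain ⟨j, rfl⟩ : ∃ j, i = j + 1 := ⟨i - 1, by omega⟩
  rw [coeff_mul_X]
  exact h j (by omega)

lemma mem_BF_of_mul_X {s : ℕ} {u : Polynomial D} (h : u * Polynomial.X ∈ BF D (s + 1)) :
    u ∈ BF D s := by
  rw [mem_BF_coeff] at h ⊢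
  intro i hi
  simpa [coeff_mul_X] using h (i + 1) (by omega)

lemma BF_mono {s t : ℕ} (h : s ≤ t) : BF D s ≤ BF D t := fun u hu => by
  rw [mem_BF_coeff] at hu ⊢
  exact fun i hi => hu i (h.trans hi)

lemma up_le_BF {W : Submodule D (Polynomial D)} {s : ℕ} (h : W ≤ BF D s) :
    up W ≤ BF D (s + 1) := by
  refine sup_le (h.trans (BF_mono (Nat.le_succ s))) ?_
  rintro _ ⟨u, hu, rfl⟩
  exact X_mul_mem_BF (h hu)

lemma up_mono {W W' : Submodule D (Polynomial D)} (h : W ≤ W') : up W ≤ up W' :=
  sup_le_sup h (Submodule.map_mono h)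

lemma finrank_mult {g : Polynomial D} (hg : g ≠ 0) (s : ℕ) : finrank D (mult g s) = s :=
  ((BF D s).equivMapOfInjective _ (rmul_injective hg)).finrank_eq.symm.trans (finrank_BF s)

lemma finrank_mult_le (g : Polynomial D) (s : ℕ) : finrank D (mult g s) ≤ s :=
  le_of_le_of_eq (Submodule.finrank_map_le _ _) (finrank_BF s)

instance (g : Polynomial D) (s : ℕ) : FiniteDimensional D (mult g s) := by
  unfold mult; infer_instance

lemma up_BF {s : ℕ} (hs : 0 < s) : up (BF D s) = BF D (s + 1) := by
  refine le_antisymm (up_le_BF le_rfl) fun u hu => ?_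
  have h : u = Polynomial.C (u.coeff 0) + u.divX * Polynomial.X := by
    conv_lhs => rw [← Polynomial.divX_mul_X_add u]
    rw [add_comm]
  rw [h]
  refine add_mem (mem_sup_left ?_) (mem_sup_right ⟨u.divX, ?_, rfl⟩)
  · rw [mem_BF_coeff]
    intro i hi
    rw [coeff_C, if_neg (by omega)]
  · rw [SetLike.mem_coe, mem_BF_coeff]
    intro i hi
    rw [coeff_divX]
    exact mem_BF_coeff.mp hu _ (by omega)

lemma up_mult {g : Polynomial D} {s : ℕ} (hs : 0 < s) : up (mult g s) = mult g (s + 1) := by
  have hcomp : (rmul Polynomial.X).comp (rmul g) =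
      (rmul g).comp (rmul (Polynomial.X : Polynomial D)) := by
    refine LinearMap.ext fun u => ?_
    simp only [LinearMap.comp_apply, rmul_apply]
    rw [mul_assoc, ← Polynomial.X_mul, ← mul_assoc]
  conv_rhs => rw [mult, ← up_BF hs, up, Submodule.map_sup, ← Submodule.map_comp]
  rw [up, mult, ← Submodule.map_comp, hcomp]

lemma finrank_up_gt {W : Submodule D (Polynomial D)} {s : ℕ} (hW : W ≤ BF D s) (h0 : W ≠ ⊥) :
    finrank D W < finrank D (up W) := by
  have := finite_of_le_BF hW
  have := finite_of_le_BF (up_le_BF hW)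
  refine Submodule.finrank_lt_finrank_of_lt (lt_of_le_of_ne le_sup_left fun h => ?_)
  obtain ⟨v, hv, hv0⟩ := W.exists_mem_ne_zero_of_ne_bot h0
  have hpow : ∀ n, v * Polynomial.X ^ n ∈ W := by
    intro n
    induction n with
    | zero => simpa using hv
    | succ n ih =>
      rw [h, pow_succ, ← mul_assoc]
      exact mem_sup_right ⟨_, ih, rfl⟩
  have := mem_BF_coeff.mp (hW (hpow s)) (v.natDegree + s) (by omega)
  rw [coeff_mul_X_pow] at this
  exact hv0 (Polynomial.leadingCoeff_eq_zero.mp this)

lemma finrank_meet {W : Submodule D (Polynomial D)} {s : ℕ} (hW : W ≤ BF D s) :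
    finrank D ↥(W ⊓ W.comap (rmul Polynomial.X)) + finrank D (up W) =
      2 * finrank D W := by
  have := finite_of_le_BF hW
  have e1 := (Submodule.finrank_sup_add_finrank_inf_eq W (W.map (rmul Polynomial.X)))
  have e2 : W ⊓ W.map (rmul Polynomial.X) =
      (W ⊓ W.comap (rmul Polynomial.X)).map (rmul Polynomial.X) := by
    ext x
    constructor
    · rintro ⟨hx, u, hu, rfl⟩
      exact ⟨u, ⟨hu, hx⟩, rfl⟩
    · rintro ⟨u, ⟨hu, hux⟩, rfl⟩
      exact ⟨hux, u, hu, rfl⟩
  have e3 := ((W ⊓ W.comap (rmul Polynomial.X)).equivMapOfInjective _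
    (rmul_injective (Polynomial.X_ne_zero (R := D)))).finrank_eq
  have e4 := (W.equivMapOfInjective _
    (rmul_injective (Polynomial.X_ne_zero (R := D)))).finrank_eq
  rw [e2] at e1
  rw [up]
  omega

/-- A space of forms with minimal growth consists of all multiples of one form. -/
theorem exists_gen : ∀ (w : ℕ) (s : ℕ) (W : Submodule D (Polynomial D)), W ≤ BF D s →
    finrank D W = w + 1 → finrank D (up W) = w + 2 → ∃ g : Polynomial D, g ≠ 0 ∧
      W = mult g (w + 1)
  | 0, s, W, hW, hw, _ => by
    have := finite_of_le_BF hW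
    obtain ⟨v, hv, hv0⟩ := W.exists_mem_ne_zero_of_ne_bot fun h => by
      rw [h, finrank_bot] at hw
      omega
    refine ⟨v, hv0, (Submodule.eq_of_le_of_finrank_le ?_ ?_).symm⟩
    · rintro _ ⟨u, hu, rfl⟩
      have hu' : u = Polynomial.C (u.coeff 0) := by
        ext i
        rw [coeff_C]
        split_ifs with h
        · rw [h]
        · exact mem_BF_coeff.mp hu i (by omega)
      rw [rmul_apply, hu', ← Polynomial.smul_eq_C_mul]
      exact W.smul_mem _ hv
    · rw [hw, finrank_mult hv0]
  | w + 1, 0, W, hW, hw, _ => by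
    rw [BF_zero, le_bot_iff] at hW
    rw [hW, finrank_bot] at hw
    omega
  | w + 1, s + 1, W, hW, hw, hu => by
    set W' := W ⊓ W.comap (rmul Polynomial.X) with hW'def
    have hW' : W' ≤ BF D s := fun v hv => mem_BF_of_mul_X (hW hv.2)
    have hd := finrank_meet hW
    rw [← hW'def] at hd
    have hsub : up W' ≤ W := by
      refine sup_le inf_le_left ?_
      rintro _ ⟨v, hv, rfl⟩
      exact hv.2
    have := finite_of_le_BF hW
    have hd' : finrank D W' = w + 1 := by omega
    have hle := Submodule.finrank_mono hsub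
    have hlt := finrank_up_gt hW' fun h => by
      rw [h, finrank_bot] at hd'
      omega
    have heq : up W' = W := Submodule.eq_of_le_of_finrank_le hsub (by omega)
    obtain ⟨g, hg, hgW⟩ := exists_gen w s W' hW' hd' (by omega)
    exact ⟨g, hg, by rw [← heq, hgW, up_mult (Nat.succ_pos w)]⟩

lemma mem_mult_of_mul_X {g v : Polynomial D} (hg : g ≠ 0) {t : ℕ} (h : v ∈ mult g (t + 1))
    (hX : v * Polynomial.X ∈ mult g (t + 1)) : v ∈ mult g t := by
  obtain ⟨u, -, rfl⟩ := h
  obtain ⟨u', hu', h'⟩ := hX
  rw [rmul_apply, rmul_apply, mul_assoc, ← Polynomial.X_mul, ← mul_assoc] at h'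
  rw [mul_right_cancel₀ hg h'] at hu'
  exact ⟨u, mem_BF_of_mul_X hu', rfl⟩

/-- A left ideal of binary forms containing two forms of degrees `a ≤ b` generating a cofinite
left ideal. -/
structure Good (a b : ℕ) (G₁ G₂ : Polynomial D) (U : ℕ → Submodule D (Polynomial D)) :
    Prop where
  le : ∀ d, U d ≤ BF D (d + 1)
  up_le : ∀ d, up (U d) ≤ U (d + 1)
  mem₁ : G₁ ∈ U a
  mem₂ : G₂ ∈ U b

variable {a b : ℕ} {G₁ G₂ : Polynomial D} {U : ℕ → Submodule D (Polynomial D)}

/-- The number of missing forms. -/
noncomputable def codim (U : ℕ → Submodule D (Polynomial D)) (d : ℕ) : ℕ :=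
  d + 1 - finrank D (U d)

lemma Good.finrank_le (h : Good a b G₁ G₂ U) (d : ℕ) : finrank D (U d) ≤ d + 1 := by
  simpa [finrank_BF] using Submodule.finrank_mono (h.le d)

lemma Good.codim_add (h : Good a b G₁ G₂ U) (d : ℕ) : codim U d + finrank D (U d) = d + 1 := by
  have := h.finrank_le d
  unfold codim
  omega

variable (ha : 1 ≤ a) (hab : a ≤ b)
  (hcof : ∃ N, BF D (N + 1) ≤ mult G₁ (N + 1 - a) ⊔ mult G₂ (N + 1 - b))

include ha hab hcof in
lemma G₁_ne_zero : G₁ ≠ 0 := by
  intro h
  obtain ⟨N, hN⟩ := hcof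
  have h1 : mult G₁ (N + 1 - a) = (⊥ : Submodule D (Polynomial D)) := by
    rw [eq_bot_iff]
    rintro _ ⟨u, -, rfl⟩
    simp [rmul_apply, h]
  rw [h1, bot_sup_eq] at hN
  have h2 := Submodule.finrank_mono hN
  rw [finrank_BF] at h2
  have := finrank_mult_le G₂ (N + 1 - b)
  omega

include ha hab hcof in
lemma Good.step (h : Good a b G₁ G₂ U) (d : ℕ) :
    (finrank D (U d) ≠ 0 → codim U (d + 1) ≤ codim U d) ∧
      (a ≤ d + 1 → codim U (d + 1) ≤ codim U d) ∧
      (b ≤ d + 1 → 0 < codim U d → codim U (d + 1) < codim U d) := by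
  have := finite_of_le_BF (h.le (d + 1))
  have hadd := h.codim_add d
  have hadd' := h.codim_add (d + 1)
  have hG := G₁_ne_zero ha hab hcof
  have hgrow : finrank D (U d) ≠ 0 → finrank D (U d) + 1 ≤ finrank D (U (d + 1)) := fun hne => by
    have h1 := finrank_up_gt (h.le d) fun hb => hne (by rw [hb, finrank_bot])
    have h2 := Submodule.finrank_mono (h.up_le d)
    omega
  have hnext : a ≤ d + 1 → finrank D (U (d + 1)) ≠ 0 := by
    intro had h0
    have hbot : U (d + 1) = ⊥ := Submodule.finrank_eq_zero.mp h0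
    have hmem : ∀ j, G₁ ∈ U (a + j) := fun j => by
      induction j with
      | zero => exact h.mem₁
      | succ j ih => exact h.up_le (a + j) (mem_sup_left ih)
    obtain ⟨j, hj⟩ := Nat.exists_eq_add_of_le had
    have := hmem j
    rw [← hj, hbot, Submodule.mem_bot] at this
    exact hG this
  have hmono : a ≤ d + 1 → codim U (d + 1) ≤ codim U d := by
    intro had
    have := hnext had
    by_cases hz : finrank D (U d) = 0
    · omega
    · have := hgrow hz; omega
  refine ⟨fun hne => by have := hgrow hne; omega, hmono, fun hbd hpos => ?_⟩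
  refine lt_of_le_of_ne (hmono (hab.trans hbd)) fun heq => ?_
  -- minimal growth makes everything a multiple of one form
  have hU1 : finrank D (U (d + 1)) = finrank D (U d) + 1 := by omega
  obtain ⟨g, hg, w, hwd, hgU⟩ : ∃ g : Polynomial D, g ≠ 0 ∧ ∃ w, w ≤ d + 1 ∧
      U (d + 1) = mult g w := by
    by_cases hz : finrank D (U d) = 0
    · obtain ⟨v, hv, hv0⟩ :=
        (U (d + 1)).exists_mem_ne_zero_of_ne_bot fun hb => by
          rw [hb, finrank_bot] at hU1
          omega
      refine ⟨v, hv0, 1, by omega, (Submodule.eq_of_le_of_finrank_le ?_ ?_).symm⟩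
      · rintro _ ⟨u, hu, rfl⟩
        have hu' : u = Polynomial.C (u.coeff 0) := by
          ext i
          rw [coeff_C]
          split_ifs with hi
          · rw [hi]
          · exact mem_BF_coeff.mp hu i (by omega)
        rw [rmul_apply, hu', ← Polynomial.smul_eq_C_mul]
        exact (U (d + 1)).smul_mem _ hv
      · rw [hU1, hz, finrank_mult hv0]
    · obtain ⟨w, hw⟩ := Nat.exists_eq_succ_of_ne_zero hz
      have := finite_of_le_BF (h.le d)
      have hle := Submodule.finrank_mono (h.up_le d)
      have hlt := finrank_up_gt (h.le d) fun hb => hz (by rw [hb, finrank_bot])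
      obtain ⟨g, hg, hgU⟩ := exists_gen w (d + 1) (U d) (h.le d) hw (by omega)
      refine ⟨g, hg, w + 2, by omega, ?_⟩
      rw [← up_mult (Nat.succ_pos w), ← hgU]
      exact (Submodule.eq_of_le_of_finrank_le (h.up_le d) (by omega)).symm
  -- descend to lower degrees
  have hdown : ∀ k, k ≤ d + 1 → ∀ v ∈ U (d + 1 - k), v ∈ mult g (w - k) := by
    intro k
    induction k with
    | zero => intro _ v hv; simpa [← hgU] using hv
    | succ k ih =>
      intro hk v hv
      have e : d + 1 - (k + 1) + 1 = d + 1 - k := by omega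
      have h1 : v ∈ mult g (w - k) :=
        ih (by omega) v (e ▸ h.up_le _ (mem_sup_left hv))
      have h2 : v * Polynomial.X ∈ mult g (w - k) :=
        ih (by omega) _ (e ▸ h.up_le _ (mem_sup_right ⟨v, hv, rfl⟩))
      rcases Nat.lt_or_ge k w with hkw | hkw
      · rw [show w - k = w - (k + 1) + 1 by omega] at h1 h2
        exact mem_mult_of_mul_X hg h1 h2
      · rw [show w - k = 0 by omega] at h1
        rw [show w - (k + 1) = 0 by omega]
        exact h1
  -- all left multiples of the two forms are multiples of `g`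
  obtain ⟨N, hN⟩ := hcof
  have hmul : ∀ (c : ℕ) (G : Polynomial D), c ≤ d + 1 → G ∈ U c →
      mult G (N + 1 - c) ≤ mult g (N + 1 - (d + 2 - w)) := by
    intro c G hc hGU
    have h1 := hdown (d + 1 - c) (by omega) G
      (by rwa [show d + 1 - (d + 1 - c) = c by omega])
    obtain ⟨u, hu, rfl⟩ := h1
    rintro _ ⟨v, hv, rfl⟩
    refine ⟨v * u, ?_, ?_⟩
    · rw [SetLike.mem_coe, mem_BF] at hv hu ⊢
      by_cases hv0 : v = 0
      · simp [hv0]
      by_cases hu0 : u = 0
      · simp [hu0]
      rw [degree_eq_natDegree hv0, Nat.cast_lt] at hv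
      rw [degree_eq_natDegree hu0, Nat.cast_lt] at hu
      rw [degree_mul, degree_eq_natDegree hv0, degree_eq_natDegree hu0, ← Nat.cast_add,
        Nat.cast_lt]
      omega
    · simp only [rmul_apply, mul_assoc]
  have := Submodule.finrank_mono (hN.trans (sup_le (hmul a G₁ (hab.trans hbd) h.mem₁)
    (hmul b G₂ hbd h.mem₂)))
  rw [finrank_BF, finrank_mult hg] at this
  have hwcard : w = finrank D (U (d + 1)) := by rw [hgU, finrank_mult hg]
  omega

include ha hab hcof in
lemma Good.codim_le (h : Good a b G₁ G₂ U) (d : ℕ) :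
    codim U d ≤ a ∧ (b ≤ d + 1 → codim U d + (d + 1 - b) ≤ a ∨ codim U d = 0) := by
  induction d with
  | zero =>
    have := h.codim_add 0
    omega
  | succ d ih =>
    obtain ⟨-, s2, s3⟩ := h.step ha hab hcof d
    have hadd := h.codim_add d
    have hadd' := h.codim_add (d + 1)
    refine ⟨?_, fun hb => ?_⟩
    · by_cases had : a ≤ d + 1
      · exact (s2 had).trans ih.1
      · omega
    · by_cases hb' : b ≤ d + 1
      · have := s2 (hab.trans hb')
        rcases Nat.eq_zero_or_pos (codim U d) with hc | hc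
        · right; omega
        · have := s3 hb' hc
          rcases ih.2 hb' with h' | h' <;> omega
      · left
        have hc : codim U (d + 1) ≤ a := by
          by_cases had : a ≤ d + 1
          · exact (s2 had).trans ih.1
          · omega
        by_cases hlt : b < d + 2
        · omega
        · omega

/-- The model: exponents `i` of the first variable in degree `d`. -/
noncomputable def model (b : ℕ) (U : ℕ → Submodule D (Polynomial D)) (d : ℕ) : Finset ℕ :=
  Finset.range (d + 1) \ Finset.Ico (d + 1 - b) (d + 1 - b + codim U d)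

lemma mem_model {d i : ℕ} : i ∈ model b U d ↔
    i < d + 1 ∧ ¬(d + 1 - b ≤ i ∧ i < d + 1 - b + codim U d) := by
  simp [model]

include ha hab hcof in
/-- The model has the right size, contains the powers and is closed under the variables. -/
theorem Good.model_spec (h : Good a b G₁ G₂ U) (d : ℕ) :
    (model b U d).card = finrank D (U d) ∧
      (∀ i, i < d + 1 → (a ≤ i ∨ b ≤ d - i) → i ∈ model b U d) ∧
      ∀ i ∈ model b U d, i ∈ model b U (d + 1) ∧ i + 1 ∈ model b U (d + 1) := by
  obtain ⟨s1, s2, s3⟩ := h.step ha hab hcof d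
  have c0 := h.codim_le ha hab hcof d
  have c1 := h.codim_le ha hab hcof (d + 1)
  have hadd := h.codim_add d
  have hadd' := h.codim_add (d + 1)
  have hfit : d + 1 - b + codim U d ≤ d + 1 ∨ codim U d = 0 := by
    rcases Nat.lt_or_ge (d + 1) b with hlt | hge
    · left; omega
    · rcases c0.2 hge with h' | h' <;> omega
  refine ⟨?_, fun i hi hpow => ?_, fun i hi => ?_⟩
  · have hsub : Finset.Ico (d + 1 - b) (d + 1 - b + codim U d) ⊆ Finset.range (d + 1) := by
      intro x hx
      rw [Finset.mem_Ico] at hx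
      rw [Finset.mem_range]
      omega
    rw [model, Finset.card_sdiff_of_subset hsub, Finset.card_range, Nat.card_Ico]
    omega
  · rw [mem_model]
    refine ⟨hi, fun hc => ?_⟩
    rcases Nat.lt_or_ge (d + 1) b with hlt | hge
    · omega
    · rcases c0.2 hge with h' | h' <;> omega
  · rw [mem_model] at hi
    simp only [mem_model]
    rcases Nat.lt_or_ge (d + 1) b with hlt | hge
    · by_cases hfull : codim U d = d + 1
      · omega
      · have := s1 (by omega)
        refine ⟨⟨by omega, ?_⟩, ⟨by omega, ?_⟩⟩ <;> omega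
    · rcases Nat.eq_zero_or_pos (codim U d) with hc | hc
      · have := s2 (hab.trans hge)
        refine ⟨⟨by omega, ?_⟩, ⟨by omega, ?_⟩⟩ <;> omega
      · have := s3 hge hc
        refine ⟨⟨by omega, ?_⟩, ⟨by omega, ?_⟩⟩ <;> omega

lemma model_mono {U' : ℕ → Submodule D (Polynomial D)} {d : ℕ} (hle : U d ≤ U' d)
    (hU' : U' d ≤ BF D (d + 1)) : model b U d ⊆ model b U' d := by
  have := finite_of_le_BF hU'
  have := Submodule.finrank_mono hle
  intro i hi
  rw [mem_model] at hi ⊢
  refine ⟨hi.1, fun hc => hi.2 ⟨hc.1, ?_⟩⟩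
  have : codim U' d ≤ codim U d := by unfold codim; omega
  omega

end Vale.Agent.P200.Skew
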