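import Vale.Agent.P200.Quad.Artinian
import Vale.Agent.P200.Skew.Binary

/-!
Ordered monomials in linear forms with coefficients in a division ring.
-/

namespace Vale.Agent.P200.Skew

open MvPolynomial Module
open scoped TensorProduct

universe u

variable {K : Type u} [Field K] {D : Type u} [DivisionRing D] [Algebra K D]

/-- The scalar `c` in the extended polynomial ring. -/
noncomputable def scal {σ : Type*} (c : D) : D ⊗[K] MvPolynomial σ K := c ⊗ₜ 1

/-- A polynomial in the extended polynomial ring. -/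
noncomputable def poly {σ : Type*} (p : MvPolynomial σ K) : D ⊗[K] MvPolynomial σ K := 1 ⊗ₜ p

section

variable {σ : Type*}

lemma scal_mul (c : D) (t : D ⊗[K] MvPolynomial σ K) : scal c * t = c • t := by
  induction t using TensorProduct.induction_on with
  | zero => simp
  | tmul x p => simp [scal, TensorProduct.smul_tmul', Algebra.TensorProduct.tmul_mul_tmul]
  | add x y hx hy => rw [mul_add, hx, hy, smul_add]

lemma smul_mul (c : D) (t u : D ⊗[K] MvPolynomial σ K) : (c • t) * u = c • (t * u) := by
  rw [← scal_mul, ← scal_mul, mul_assoc]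

lemma poly_comm (p : MvPolynomial σ K) (t : D ⊗[K] MvPolynomial σ K) :
    poly p * t = t * poly p := by
  induction t using TensorProduct.induction_on with
  | zero => simp
  | tmul x q => simp [poly, Algebra.TensorProduct.tmul_mul_tmul, mul_comm p]
  | add x y hx hy => rw [mul_add, add_mul, hx, hy]

lemma scal_comm {c : D} (hc : ∀ d, Commute c d) (t : D ⊗[K] MvPolynomial σ K) :
    scal c * t = t * scal c := by
  induction t using TensorProduct.induction_on with
  | zero => simp
  | tmul x q => simp [scal, Algebra.TensorProduct.tmul_mul_tmul, (hc x).eq]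
  | add x y hx hy => rw [mul_add, add_mul, hx, hy]

/-- Right multiplication. -/
noncomputable def rm (u : D ⊗[K] MvPolynomial σ K) :
    D ⊗[K] MvPolynomial σ K →ₗ[D] D ⊗[K] MvPolynomial σ K where
  toFun t := t * u
  map_add' _ _ := add_mul _ _ _
  map_smul' c t := smul_mul c t u

lemma rm_apply (u t : D ⊗[K] MvPolynomial σ K) : rm u t = t * u := rfl

variable (D) in
/-- Extended subspaces. -/
noncomputable def ext' (W : Submodule K (MvPolynomial σ K)) :
    Submodule D (D ⊗[K] MvPolynomial σ K) :=
  Submodule.span D ((fun p => poly p) '' (W : Set (MvPolynomial σ K)))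

lemma tmul_mem_ext {W : Submodule K (MvPolynomial σ K)} (c : D) {p : MvPolynomial σ K}
    (hp : p ∈ W) : c ⊗ₜ[K] p ∈ ext' D W := by
  rw [show c ⊗ₜ[K] p = c • poly (D := D) p by simp [poly, TensorProduct.smul_tmul']]
  exact Submodule.smul_mem _ _ (Submodule.subset_span ⟨p, hp, rfl⟩)

lemma ext_mul_le {W W' W'' : Submodule K (MvPolynomial σ K)}
    (h : ∀ p ∈ W, ∀ q ∈ W', p * q ∈ W'') {t u : D ⊗[K] MvPolynomial σ K}
    (ht : t ∈ ext' D W) (hu : u ∈ ext' D W') : t * u ∈ ext' D W'' := by
  induction ht using Submodule.span_induction with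
  | mem x hx =>
    obtain ⟨p, hp, rfl⟩ := hx
    induction hu using Submodule.span_induction with
    | mem y hy =>
      obtain ⟨q, hq, rfl⟩ := hy
      simp only [poly, Algebra.TensorProduct.tmul_mul_tmul, one_mul]
      exact tmul_mem_ext _ (h p hp q hq)
    | zero => simp
    | add a b _ _ ha hb => rw [mul_add]; exact add_mem ha hb
    | smul c a _ ha =>
      rw [← scal_mul, ← mul_assoc, poly_comm, mul_assoc, scal_mul]
      exact Submodule.smul_mem _ _ ha
  | zero => simp
  | add a b _ _ ha hb => rw [add_mul]; exact add_mem ha hb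
  | smul c a _ ha => rw [smul_mul]; exact Submodule.smul_mem _ _ ha

lemma finrank_ext (W : Submodule K (MvPolynomial σ K)) [FiniteDimensional K W] :
    finrank D (ext' D W) = finrank K W :=
  Quad.finrank_span_one_tmul W

variable (D) in
/-- The degree piece. -/
noncomputable def TD (σ : Type*) (K : Type u) [Field K] [Algebra K D] (d : ℕ) :
    Submodule D (D ⊗[K] MvPolynomial σ K) :=
  ext' D (homogeneousSubmodule σ K d)

lemma mul_mem_TD {d e : ℕ} {t u : D ⊗[K] MvPolynomial σ K} (ht : t ∈ TD D σ K d)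
    (hu : u ∈ TD D σ K e) : t * u ∈ TD D σ K (d + e) :=
  ext_mul_le (fun _ hp _ hq => (mem_homogeneousSubmodule _ _).2
    (IsHomogeneous.mul ((mem_homogeneousSubmodule _ _).1 hp)
      ((mem_homogeneousSubmodule _ _).1 hq))) ht hu

lemma scal_mem_TD (c : D) : scal c ∈ TD D σ K 0 :=
  tmul_mem_ext c (isHomogeneous_one _ _)

lemma one_mem_TD : (1 : D ⊗[K] MvPolynomial σ K) ∈ TD D σ K 0 :=
  tmul_mem_ext 1 (isHomogeneous_one _ _)

lemma poly_mem_TD {p : MvPolynomial σ K} {d : ℕ} (hp : p.IsHomogeneous d) :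
    poly p ∈ TD D σ K d :=
  tmul_mem_ext 1 hp

variable (K D σ) in
/-- The homogeneous component. -/
noncomputable def comp (d : ℕ) : D ⊗[K] MvPolynomial σ K →ₗ[D] D ⊗[K] MvPolynomial σ K :=
  TensorProduct.AlgebraTensorModule.map LinearMap.id (homogeneousComponent d)

lemma comp_of_mem {d e : ℕ} {t : D ⊗[K] MvPolynomial σ K} (ht : t ∈ TD D σ K e) :
    comp K D σ d t = if d = e then t else 0 := by
  induction ht using Submodule.span_induction with
  | mem x hx =>
    obtain ⟨p, hp, rfl⟩ := hx
    simp only [comp, poly, TensorProduct.AlgebraTensorModule.map_tmul, LinearMap.id_apply,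
      homogeneousComponent_of_mem hp]
    split_ifs <;> simp
  | zero => simp
  | add a b _ _ ha hb => rw [map_add, ha, hb]; split_ifs <;> simp
  | smul c a _ ha => rw [map_smul, ha]; split_ifs <;> simp

end

variable {m : ℕ}

/-- Two central linear forms and `m` skew linear forms spanning all linear forms, the latter
commuting up to central scalars. -/
structure Frame (K : Type u) [Field K] (D : Type u) [DivisionRing D] [Algebra K D] (m : ℕ) where
  /-- the skew coefficients -/
  g : Fin m → Fin (m + 2) → D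
  /-- the central forms -/
  y : Fin 2 → MvPolynomial (Fin (m + 2)) K
  y_hom : ∀ j, (y j).IsHomogeneous 1
  /-- the commutation scalars -/
  q : Fin m → Fin m → D
  q_central : ∀ k l d, Commute (q k l) d
  q_ne : ∀ k l, q k l ≠ 0
  comm : ∀ k l, k ≠ l → (∑ i, g k i ⊗ₜ[K] (X i : MvPolynomial (Fin (m + 2)) K)) *
      (∑ i, g l i ⊗ₜ[K] (X i : MvPolynomial (Fin (m + 2)) K)) =
    scal (q k l) * ((∑ i, g l i ⊗ₜ[K] (X i : MvPolynomial (Fin (m + 2)) K)) *
      ∑ i, g k i ⊗ₜ[K] (X i : MvPolynomial (Fin (m + 2)) K))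
  spans : ∀ i, ∃ (E : Fin m → D) (b : Fin 2 → D),
    poly (X i : MvPolynomial (Fin (m + 2)) K) =
      (∑ k, scal (E k) * ∑ i, g k i ⊗ₜ[K] (X i : MvPolynomial (Fin (m + 2)) K)) +
        ∑ j, scal (b j) * poly (y j)

namespace Frame

variable (F : Frame K D m)

/-- The skew linear forms. -/
noncomputable def phi (k : Fin m) : D ⊗[K] MvPolynomial (Fin (m + 2)) K :=
  ∑ i, F.g k i ⊗ₜ[K] X i

lemma phi_mem (k : Fin m) : F.phi k ∈ TD D (Fin (m + 2)) K 1 :=
  sum_mem fun i _ => tmul_mem_ext _ (isHomogeneous_X K i)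

/-- Ordered products of powers along a list. -/
noncomputable def wordL (L : List (Fin m)) (τ : Fin m →₀ ℕ) :
    D ⊗[K] MvPolynomial (Fin (m + 2)) K :=
  (L.map fun k => F.phi k ^ τ k).prod

/-- Scaling by a nonzero central scalar. -/
def Scales (u v : D ⊗[K] MvPolynomial (Fin (m + 2)) K) : Prop :=
  ∃ c : D, c ≠ 0 ∧ (∀ d, Commute c d) ∧ u = scal c * v

lemma scales_refl (u : D ⊗[K] MvPolynomial (Fin (m + 2)) K) : Scales u u :=
  ⟨1, one_ne_zero, fun d => Commute.one_left d, by rw [scal_mul, one_smul]⟩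

lemma Scales.trans {u v w : D ⊗[K] MvPolynomial (Fin (m + 2)) K} (h : Scales u v)
    (h' : Scales v w) : Scales u w := by
  obtain ⟨c, hc, hcc, rfl⟩ := h
  obtain ⟨c', hc', hcc', rfl⟩ := h'
  exact ⟨c * c', mul_ne_zero hc hc', fun d => (hcc d).mul_left (hcc' d),
    by rw [scal_mul, scal_mul, scal_mul, smul_smul]⟩

lemma Scales.mul_left {u v : D ⊗[K] MvPolynomial (Fin (m + 2)) K} (h : Scales u v)
    (w : D ⊗[K] MvPolynomial (Fin (m + 2)) K) : Scales (w * u) (w * v) := by
  obtain ⟨c, hc, hcc, rfl⟩ := h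
  exact ⟨c, hc, hcc, by rw [← mul_assoc, ← scal_comm hcc, mul_assoc]⟩

lemma Scales.mul_right {u v : D ⊗[K] MvPolynomial (Fin (m + 2)) K} (h : Scales u v)
    (w : D ⊗[K] MvPolynomial (Fin (m + 2)) K) : Scales (u * w) (v * w) := by
  obtain ⟨c, hc, hcc, rfl⟩ := h
  exact ⟨c, hc, hcc, by rw [mul_assoc]⟩

lemma scales_swap {k l : Fin m} (h : k ≠ l) :
    Scales (F.phi k * F.phi l) (F.phi l * F.phi k) :=
  ⟨F.q k l, F.q_ne k l, F.q_central k l, F.comm k l h⟩

lemma scales_pow_swap {k l : Fin m} (h : k ≠ l) : ∀ e : ℕ,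
    Scales (F.phi k ^ e * F.phi l) (F.phi l * F.phi k ^ e)
  | 0 => by simpa using scales_refl _
  | e + 1 => by
    have h1 : Scales (F.phi k ^ (e + 1) * F.phi l) (F.phi k ^ e * F.phi l * F.phi k) := by
      rw [pow_succ, mul_assoc, mul_assoc]
      exact (F.scales_swap h).mul_left _
    refine h1.trans ?_
    rw [pow_succ, ← mul_assoc]
    exact (scales_pow_swap h e).mul_right _

lemma scales_wordL_swap : ∀ (L : List (Fin m)) (τ : Fin m →₀ ℕ) (k : Fin m), k ∉ L →
    Scales (F.wordL L τ * F.phi k) (F.phi k * F.wordL L τ)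
  | [], τ, k, _ => by simpa [wordL] using scales_refl _
  | l :: L, τ, k, hk => by
    have hl : l ≠ k := fun h => hk (by simp [h])
    have h1 := (scales_wordL_swap L τ k fun h => hk (List.mem_cons_of_mem _ h)).mul_left
      (F.phi l ^ τ l)
    simp only [wordL, List.map_cons, List.prod_cons] at h1 ⊢
    rw [mul_assoc]
    refine h1.trans ?_
    rw [← mul_assoc, ← mul_assoc]
    exact (F.scales_pow_swap hl _).mul_right _

lemma wordL_congr : ∀ (L : List (Fin m)) (τ τ' : Fin m →₀ ℕ), (∀ l ∈ L, τ l = τ' l) →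
    F.wordL L τ = F.wordL L τ' := fun L τ τ' h => by
  unfold wordL
  rw [List.map_congr_left fun l hl => by rw [h l hl]]

lemma scales_wordL_mul : ∀ (L : List (Fin m)) (τ : Fin m →₀ ℕ) (k : Fin m), L.Nodup → k ∈ L →
    Scales (F.wordL L τ * F.phi k) (F.wordL L (τ + Finsupp.single k 1))
  | [], _, _, _, hk => by simp at hk
  | l :: L, τ, k, hL, hk => by
    rw [List.nodup_cons] at hL
    rcases eq_or_ne l k with rfl | hlk
    · have hc : F.wordL L (τ + Finsupp.single l 1) = F.wordL L τ :=
        F.wordL_congr _ _ _ fun j hj => by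
          have hne : ¬ l = j := fun h => hL.1 (h ▸ hj)
          simp [hne]
      have h1 := (F.scales_wordL_swap L τ l hL.1).mul_left (F.phi l ^ τ l)
      simp only [wordL, List.map_cons, List.prod_cons] at h1 hc ⊢
      rw [hc, mul_assoc]
      refine h1.trans ?_
      rw [← mul_assoc, Finsupp.add_apply, Finsupp.single_eq_same, pow_succ]
      exact scales_refl _
    · have hk' : k ∈ L := (List.mem_cons.1 hk).resolve_left (Ne.symm hlk)
      have h1 := (scales_wordL_mul L τ k hL.2 hk').mul_left (F.phi l ^ τ l)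
      simp only [wordL, List.map_cons, List.prod_cons] at h1 ⊢
      rw [mul_assoc]
      refine h1.trans ?_
      rw [Finsupp.add_apply, Finsupp.single_eq_of_ne hlk, add_zero]
      exact scales_refl _

/-- The skew part of an exponent. -/
noncomputable def tail (e : Fin (m + 2) →₀ ℕ) : Fin m →₀ ℕ :=
  Finsupp.equivFunOnFinite.symm fun k => e k.succ.succ

lemma tail_apply (e : Fin (m + 2) →₀ ℕ) (k : Fin m) : tail e k = e k.succ.succ := rfl

lemma tail_add (e e' : Fin (m + 2) →₀ ℕ) : tail (e + e') = tail e + tail e' := by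
  ext k; simp [tail_apply]

lemma degree_split (e : Fin (m + 2) →₀ ℕ) : e.degree = e 0 + e 1 + (tail e).degree := by
  rw [Finsupp.degree_eq_sum, Finsupp.degree_eq_sum, Fin.sum_univ_succ, Fin.sum_univ_succ]
  simp [tail_apply, add_assoc]

/-- The ordered monomial. -/
noncomputable def mon (e : Fin (m + 2) →₀ ℕ) : D ⊗[K] MvPolynomial (Fin (m + 2)) K :=
  poly (F.y 0 ^ e 0 * F.y 1 ^ e 1) * F.wordL (List.finRange m) (tail e)

lemma wordL_mem : ∀ (L : List (Fin m)) (τ : Fin m →₀ ℕ),
    F.wordL L τ ∈ TD D (Fin (m + 2)) K (L.map fun k => τ k).sum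
  | [], τ => by simpa [wordL] using one_mem_TD
  | l :: L, τ => by
    have hp : ∀ e, F.phi l ^ e ∈ TD D (Fin (m + 2)) K e := fun e => by
      induction e with
      | zero => simpa using one_mem_TD
      | succ e ih => rw [pow_succ]; exact mul_mem_TD ih (F.phi_mem l)
    simp only [wordL, List.map_cons, List.prod_cons, List.sum_cons]
    exact mul_mem_TD (hp _) (wordL_mem L τ)

lemma mon_mem (e : Fin (m + 2) →₀ ℕ) : F.mon e ∈ TD D (Fin (m + 2)) K e.degree := by
  have hsum : ((List.finRange m).map fun k => tail e k).sum = (tail e).degree := by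
    rw [← List.sum_toFinset _ (List.nodup_finRange m), List.toFinset_finRange,
      Finsupp.degree_eq_sum]
  rw [degree_split, ← hsum]
  refine mul_mem_TD (poly_mem_TD ?_) (F.wordL_mem _ _)
  simpa using ((F.y_hom 0).pow (e 0)).mul ((F.y_hom 1).pow (e 1))

/-- The index of a central form. -/
def yIdx (j : Fin 2) : Fin (m + 2) := Fin.castLE (by omega) j

lemma mon_mul_y (e : Fin (m + 2) →₀ ℕ) (j : Fin 2) :
    F.mon e * poly (F.y j) = F.mon (e + Finsupp.single (yIdx j) 1) := by
  have ht : tail (Finsupp.single (yIdx (m := m) j) 1) = 0 := by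
    ext k
    have : yIdx (m := m) j ≠ k.succ.succ := fun h => by
      have := congrArg Fin.val h
      simp [yIdx] at this
      omega
    simp [tail_apply, this]
  rw [mon, mon, mul_assoc, ← poly_comm, ← mul_assoc, tail_add, ht, add_zero]
  congr 1
  simp only [poly, Algebra.TensorProduct.tmul_mul_tmul, one_mul]
  congr 1
  have h01 : yIdx (m := m) 0 = 0 := rfl
  have h11 : yIdx (m := m) 1 = 1 := Fin.ext (by simp [yIdx])
  fin_cases j <;> simp [h01, h11, pow_succ] <;> ring

lemma mon_mul_phi (e : Fin (m + 2) →₀ ℕ) (k : Fin m) :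
    Scales (F.mon e * F.phi k) (F.mon (e + Finsupp.single k.succ.succ 1)) := by
  have ht : tail (Finsupp.single k.succ.succ 1) = (Finsupp.single k 1 : Fin m →₀ ℕ) := by
    ext l; simp [tail_apply, Finsupp.single_apply]
  have h0 : (k.succ.succ : Fin (m + 2)) ≠ 0 := Fin.succ_ne_zero _
  have h1 : (k.succ.succ : Fin (m + 2)) ≠ 1 := fun h => by
    have := congrArg Fin.val h
    simp at this
  rw [mon, mon, tail_add, ht, Finsupp.add_apply, Finsupp.add_apply,
    Finsupp.single_eq_of_ne (Ne.symm h0), Finsupp.single_eq_of_ne (Ne.symm h1), add_zero, add_zero,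
    mul_assoc]
  exact (F.scales_wordL_mul _ _ _ (List.nodup_finRange m) (List.mem_finRange k)).mul_left _

lemma span_step {d' : ℕ} {u : D ⊗[K] MvPolynomial (Fin (m + 2)) K}
    (hu : u ∈ Submodule.span D (F.mon '' {e | e.degree = d'})) :
    (∀ k, u * F.phi k ∈ Submodule.span D (F.mon '' {e | e.degree = d' + 1})) ∧
      ∀ j, u * poly (F.y j) ∈ Submodule.span D (F.mon '' {e | e.degree = d' + 1}) := by
  induction hu using Submodule.span_induction with
    | mem x hx =>
      obtain ⟨e, he, rfl⟩ := hx
      refine ⟨fun k => ?_, fun j => ?_⟩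
      · obtain ⟨c, -, -, h⟩ := F.mon_mul_phi e k
        rw [h, scal_mul]
        exact Submodule.smul_mem _ _ (Submodule.subset_span ⟨_, by simpa using he, rfl⟩)
      · rw [F.mon_mul_y]
        exact Submodule.subset_span ⟨_, by simpa using he, rfl⟩
    | zero => simp
    | add a b _ _ ha hb =>
      exact ⟨fun k => by rw [add_mul]; exact add_mem (ha.1 k) (hb.1 k),
        fun j => by rw [add_mul]; exact add_mem (ha.2 j) (hb.2 j)⟩
    | smul c a _ ha =>
      exact ⟨fun k => by rw [smul_mul]; exact Submodule.smul_mem _ _ (ha.1 k),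
        fun j => by rw [smul_mul]; exact Submodule.smul_mem _ _ (ha.2 j)⟩

lemma X_step {d : ℕ} (ih : TD D (Fin (m + 2)) K d ≤ Submodule.span D (F.mon '' {e | e.degree = d}))
    {x : MvPolynomial (Fin (m + 2)) K} (hx : x.IsHomogeneous d) (i : Fin (m + 2)) :
    poly (D := D) (x * X i) ∈ Submodule.span D (F.mon '' {e | e.degree = d + 1}) := by
  obtain ⟨E, b, hEb⟩ := F.spans i
  have h : poly (D := D) (x * X i) = poly x * poly (X i) := by
    simp only [poly, Algebra.TensorProduct.tmul_mul_tmul, one_mul]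
  have hxc : ∀ c : D, poly x * scal c ∈ TD D (Fin (m + 2)) K d := fun c => by
    have h2 : poly x * scal c ∈ TD D (Fin (m + 2)) K (d + 0) :=
      mul_mem_TD (poly_mem_TD hx) (scal_mem_TD c)
    simpa only [Nat.add_zero] using h2
  rw [h, hEb, mul_add, Finset.mul_sum, Finset.mul_sum]
  refine add_mem (sum_mem fun k _ => ?_) (sum_mem fun j _ => ?_)
  · rw [← mul_assoc]; exact (F.span_step (ih (hxc (E k)))).1 k
  · rw [← mul_assoc]; exact (F.span_step (ih (hxc (b j)))).2 j

lemma TD_le_span : ∀ d, TD D (Fin (m + 2)) K d ≤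
    Submodule.span D (F.mon '' {e | e.degree = d}) := by
  intro d
  induction d with
  | zero =>
    refine Submodule.span_le.2 ?_
    rintro _ ⟨p, hp, rfl⟩
    have hp' : p = C (coeff 0 p) := totalDegree_eq_zero_iff_eq_C.1
      (Nat.le_zero.1 ((mem_homogeneousSubmodule _ _).1 hp).totalDegree_le)
    have h1 : F.mon 0 = 1 := by
      simp [mon, wordL, tail_apply, poly, Algebra.TensorProduct.one_def]
    rw [SetLike.mem_coe, hp', C_eq_smul_one]
    simp only [poly, TensorProduct.tmul_smul]
    refine Submodule.smul_of_tower_mem _ _ (Submodule.subset_span ⟨0, by simp, ?_⟩)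
    rw [h1, Algebra.TensorProduct.one_def]
  | succ d ih =>
    refine Submodule.span_le.2 ?_
    rintro _ ⟨p, hp, rfl⟩
    have hp' : p ∈ homogeneousSubmodule (Fin (m + 2)) K d *
        homogeneousSubmodule (Fin (m + 2)) K 1 := by
      rw [← homogeneousSubmodule_one_pow (σ := Fin (m + 2)) (R := K) d, ← pow_succ,
        homogeneousSubmodule_one_pow]
      exact hp
    clear hp
    induction hp' using Submodule.mul_induction_on' with
    | mem_mul_mem x hx y hy =>
      rw [homogeneousSubmodule_one_eq_span_X] at hy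
      induction hy using Submodule.span_induction with
      | mem y hy =>
        obtain ⟨i, rfl⟩ := hy
        exact F.X_step ih ((mem_homogeneousSubmodule _ _).1 hx) i
      | zero => simp [poly]
      | add y y' _ _ hy hy' =>
        simp only [SetLike.mem_coe, poly] at hy hy' ⊢
        rw [mul_add, TensorProduct.tmul_add]; exact add_mem hy hy'
      | smul c y _ hy =>
        simp only [SetLike.mem_coe, poly] at hy ⊢
        rw [mul_smul_comm, TensorProduct.tmul_smul]
        exact Submodule.smul_of_tower_mem _ _ hy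
    | add x _ y _ hx hy =>
      simp only [SetLike.mem_coe, poly] at hx hy ⊢
      rw [TensorProduct.tmul_add]; exact add_mem hx hy

lemma span_degree_eq (d : ℕ) :
    Submodule.span D (F.mon '' {e | e.degree = d}) = TD D (Fin (m + 2)) K d := by
  refine le_antisymm (Submodule.span_le.2 ?_) (F.TD_le_span d)
  rintro _ ⟨e, he, rfl⟩
  exact he ▸ F.mon_mem e

lemma span_mon_top : Submodule.span D (Set.range F.mon) = ⊤ := by
  refine eq_top_iff.2 fun t _ => ?_
  induction t using TensorProduct.induction_on with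
  | zero => simp
  | tmul c p =>
    conv_rhs => rw [← sum_homogeneousComponent p, TensorProduct.tmul_sum]
    refine sum_mem fun d _ => ?_
    exact Submodule.span_mono (Set.image_subset_range _ _)
      (F.TD_le_span d (tmul_mem_ext c (homogeneousComponent_mem d p)))
  | add a b ha hb => exact add_mem (ha trivial) (hb trivial)

lemma linearIndependent_mon : LinearIndependent D F.mon := by
  classical
  have hdeg : ∀ d, LinearIndependent D
      fun e : {e : Fin (m + 2) →₀ ℕ // e.degree = d} => F.mon e.1 := fun d => by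
    let S := (Finset.univ : Finset (Fin (m + 2))).finsuppAntidiag d
    have hS : ∀ e, e ∈ S ↔ e.degree = d := fun e => by simp [S, Finsupp.degree_eq_sum]
    have : Fintype {e : Fin (m + 2) →₀ ℕ // e.degree = d} := Fintype.subtype S hS
    rw [linearIndependent_iff_card_eq_finrank_span]
    have himg : Set.range (fun e : {e : Fin (m + 2) →₀ ℕ // e.degree = d} => F.mon e.1) =
        F.mon '' {e | e.degree = d} := by
      ext x; simp
    rw [Set.finrank, himg, F.span_degree_eq, TD, finrank_ext, Quad.finrank_homog,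
      Nat.card_eq_fintype_card]
  rw [linearIndependent_iff']
  intro s c hc e he
  have h := congrArg (comp K D (Fin (m + 2)) e.degree) hc
  simp only [map_sum, map_smul, comp_of_mem (F.mon_mem _), map_zero, smul_ite, smul_zero] at h
  rw [← Finset.sum_filter] at h
  exact linearIndependent_iff'.1 (hdeg e.degree)
    ((s.filter fun x => e.degree = x.degree).subtype fun x => x.degree = e.degree)
    (fun x => c x.1) (by
      rw [Finset.sum_subtype_eq_sum_filter (fun x => c x • F.mon x)]
      refine (Finset.sum_congr ?_ fun _ _ => rfl).trans h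
      ext x
      simp only [Finset.mem_filter]
      exact ⟨fun hx => hx.1, fun hx => ⟨hx, hx.2.symm⟩⟩) ⟨e, rfl⟩ (by simp [he])

/-- The ordered monomials as a basis. -/
noncomputable def basis : Basis (Fin (m + 2) →₀ ℕ) D (D ⊗[K] MvPolynomial (Fin (m + 2)) K) :=
  Basis.mk F.linearIndependent_mon (le_of_eq F.span_mon_top.symm)

lemma basis_apply (e : Fin (m + 2) →₀ ℕ) : F.basis e = F.mon e := by simp [basis]

end Frame

end Vale.Agent.P200.Skew
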