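import Vale.Agent.P200.Skew.Series

/-!
Polynomials with coefficients in a division ring, with the ordered monomials in the linear forms of
a factorisation as a basis.
-/

namespace Vale.Agent.P200.Skew

open Module AddMonoidAlgebra

set_option linter.unusedSectionVars false

/-- Exponents of a fixed total. -/
abbrev Expo (n d : ℕ) : Type := {α : Fin n → ℕ // ∑ i, α i = d}

noncomputable instance (n d : ℕ) : Fintype (Expo n d) :=
  Fintype.ofEquiv _ (Sym.equivNatSumOfFintype (Fin n) d)

lemma card_expo (n d : ℕ) : Fintype.card (Expo n d) = n.multichoose d := by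
  rw [← Fintype.card_congr (Sym.equivNatSumOfFintype (Fin n) d), Sym.card_sym_eq_multichoose,
    Fintype.card_fin]

lemma freeFn_eq : ∀ r d, freeFn r d = r.multichoose d
  | 0, 0 => by simp [freeFn, divList, delta]
  | 0, d + 1 => by simp [freeFn, divList, delta]
  | r + 1, d => by
    have h : (fun d => (r + 1).multichoose d) = divOp 1 (freeFn r) := by
      refine divOp_unique one_pos _ _ (fun d hd => ?_) fun d => ?_
      · obtain rfl : d = 0 := by omega
        simp [freeFn_eq r 0]
      · rw [Nat.multichoose_succ_succ, freeFn_eq r (d + 1)]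
    exact (congrFun h d).symm

/-- The polynomials over `D`. -/
abbrev Pol (D : Type*) [Semiring D] (n : ℕ) : Type _ := AddMonoidAlgebra D (Fin n →₀ ℕ)

variable {K : Type*} [Field K] {D : Type*} [DivisionRing D] [Algebra K D] {n : ℕ}

/-- The elements of degree `d`. -/
noncomputable def pdeg (D : Type*) [DivisionRing D] (n d : ℕ) : Submodule D (Pol D n) :=
  Submodule.span D ((fun e => single e (1 : D)) '' {e : Fin n →₀ ℕ | e.degree = d})

lemma single_mem_pdeg {e : Fin n →₀ ℕ} {d : ℕ} (he : e.degree = d) (c : D) :
    single e c ∈ pdeg D n d := by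
  have : single e c = c • single e (1 : D) := by rw [smul_single, smul_eq_mul, mul_one]
  rw [this]
  exact Submodule.smul_mem _ _ (Submodule.subset_span ⟨e, he, rfl⟩)

lemma finrank_pdeg (d : ℕ) : finrank D (pdeg D n d) = n.multichoose d := by
  let v : Expo n d → Pol D n := fun α => single (Finsupp.equivFunOnFinite.symm α.1) (1 : D)
  have hv : pdeg D n d = Submodule.span D (Set.range v) := by
    rw [pdeg]
    congr 1
    ext x
    constructor
    · rintro ⟨e, he, rfl⟩
      exact ⟨⟨⇑e, by rw [← Finsupp.degree_eq_sum]; exact he⟩, by simp [v]⟩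
    · rintro ⟨α, rfl⟩
      exact ⟨_, by simp [Finsupp.degree_eq_sum, α.2], rfl⟩
  have hli : LinearIndependent D v := by
    have : v = (AddMonoidAlgebra.basis (Fin n →₀ ℕ) D) ∘
        (fun α : Expo n d => Finsupp.equivFunOnFinite.symm α.1) := by
      funext α
      simp [v]
    rw [this]
    exact (AddMonoidAlgebra.basis (Fin n →₀ ℕ) D).linearIndependent.comp _
      fun a b h => Subtype.ext (Finsupp.equivFunOnFinite.symm.injective h)
  rw [hv, finrank_span_eq_card hli, card_expo]

instance (d : ℕ) : FiniteDimensional D (pdeg D n d) := by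
  refine FiniteDimensional.span_of_finite D (Set.Finite.image _ ?_)
  refine Set.Finite.of_surjOn (fun α : Expo n d => Finsupp.equivFunOnFinite.symm α.1)
    (fun e he => ?_) Set.finite_univ
  exact ⟨⟨⇑e, by rw [← Finsupp.degree_eq_sum]; exact he⟩, trivial, by simp⟩

/-- The scalars included. -/
noncomputable def iota (K D : Type*) [Field K] [DivisionRing D] [Algebra K D] (n : ℕ) :
    MvPolynomial (Fin n) K →+* Pol D n :=
  AddMonoidAlgebra.mapRingHom _ (algebraMap K D)

lemma iota_monomial (e : Fin n →₀ ℕ) (c : K) :
    iota K D n (MvPolynomial.monomial e c) = single e (algebraMap K D c) :=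
  AddMonoidAlgebra.mapRingHom_single _ _ _

lemma iota_comm (u : MvPolynomial (Fin n) K) (x : Pol D n) :
    x * iota K D n u = iota K D n u * x := by
  induction u using MvPolynomial.induction_on' with
  | monomial e c =>
    rw [iota_monomial]
    induction x using AddMonoidAlgebra.induction_linear with
    | zero => simp
    | add a b ha hb => rw [add_mul, mul_add, ha, hb]
    | single m r => rw [single_mul_single, single_mul_single, add_comm, Algebra.commutes]
  | add a b ha hb => rw [map_add, mul_add, add_mul, ha, hb]

/-- Multiplication by the scalars. -/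
noncomputable def act (K D : Type*) [Field K] [DivisionRing D] [Algebra K D] (n : ℕ) :
    MvPolynomial (Fin n) K →* Module.End D (Pol D n) where
  toFun u := LinearMap.mulRight D (iota K D n u)
  map_one' := LinearMap.ext fun x => by simp
  map_mul' u v := LinearMap.ext fun x => by
    simp only [LinearMap.mulRight_apply, Module.End.mul_apply]
    rw [mul_comm u v, map_mul, mul_assoc]

lemma act_apply (u : MvPolynomial (Fin n) K) (x : Pol D n) :
    act K D n u x = x * iota K D n u := rfl

lemma iota_mem_pdeg {u : MvPolynomial (Fin n) K} {a : ℕ} (hu : u.IsHomogeneous a) :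
    iota K D n u ∈ pdeg D n a := by
  rw [MvPolynomial.as_sum u, map_sum]
  refine sum_mem fun e he => ?_
  rw [iota_monomial]
  refine single_mem_pdeg ?_ _
  rw [Finsupp.degree_eq_weight_one]
  exact hu (MvPolynomial.mem_support_iff.1 he)

lemma single_one_mul_smul (e : Fin n →₀ ℕ) (c : D) (x : Pol D n) :
    single e (1 : D) * (c • x) = c • (single e (1 : D) * x) := by
  induction x using AddMonoidAlgebra.induction_linear with
  | zero => simp
  | add a b ha hb => rw [smul_add, mul_add, ha, hb, mul_add, smul_add]
  | single m r => simp only [smul_single, single_mul_single, smul_eq_mul, one_mul]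

lemma mul_mem_pdeg {i j : ℕ} {x y : Pol D n} (hx : x ∈ pdeg D n i) (hy : y ∈ pdeg D n j) :
    x * y ∈ pdeg D n (i + j) := by
  induction hx using Submodule.span_induction with
  | mem x hx =>
    obtain ⟨e, he, rfl⟩ := hx
    induction hy using Submodule.span_induction with
    | mem y hy =>
      obtain ⟨e', he', rfl⟩ := hy
      rw [single_mul_single]
      refine single_mem_pdeg ?_ _
      rw [map_add, show e.degree = i from he, show e'.degree = j from he']
    | zero => simp
    | add a b _ _ ha hb => rw [mul_add]; exact add_mem ha hb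
    | smul c a _ ha => rw [single_one_mul_smul]; exact Submodule.smul_mem _ _ ha
  | zero => simp
  | add a b _ _ ha hb => rw [add_mul]; exact add_mem ha hb
  | smul c a _ ha => rw [smul_mul_assoc]; exact Submodule.smul_mem _ _ ha

end Vale.Agent.P200.Skew
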