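import Vale.Agent.P200.Skew.Series

/-!
Regular sequences of commuting homogeneous operators on a graded vector space over a division ring,
recognised by the Hilbert function; replacing a product by one of its factors.
-/

namespace Vale.Agent.P200.Skew

set_option linter.unusedSectionVars false

open Module

variable {D : Type*} [DivisionRing D] {N : Type*} [AddCommGroup N] [Module D N]
  {R : Type*} [CommMonoid R] (act : R →* Module.End D N) (deg : ℕ → Submodule D N)
  (base : ℕ → Submodule D N)

/-- The element `r` maps each degree into the one `a` higher. -/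
def Raises (p : ℕ × R) : Prop := ∀ i, ∀ v ∈ deg i, act p.2 v ∈ deg (i + p.1)

/-- The images of the operators of a list in degree `d`. -/
def img : List (ℕ × R) → ℕ → Submodule D N
  | [], d => base d
  | p :: L, d => (if p.1 ≤ d then (deg (d - p.1)).map (act p.2) else ⊥) ⊔ img L d

/-- The Hilbert function of the quotient by the operators of a list. -/
noncomputable def hq (L : List (ℕ × R)) (d : ℕ) : ℕ :=
  finrank D (deg d) - finrank D (img act deg base L d)

/-- The list is a regular sequence, seen on Hilbert functions. -/
def Reg (L : List (ℕ × R)) : Prop :=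
  hq act deg base [] = divList (L.map Prod.fst) (hq act deg base L)

/-- `p` is injective modulo the operators of `L`. -/
def InjMod (p : ℕ × R) (L : List (ℕ × R)) : Prop :=
  ∀ d, ∀ v ∈ deg d, act p.2 v ∈ img act deg base L (d + p.1) → v ∈ img act deg base L d

variable {act deg base}

lemma img_le (hb : ∀ d, base d ≤ deg d) : ∀ {L : List (ℕ × R)}, (∀ p ∈ L, Raises act deg p) → ∀ d,
    img act deg base L d ≤ deg d
  | [], _, d => hb d
  | p :: L, h, d => by
    refine sup_le ?_ (img_le hb (fun q hq => h q (List.mem_cons_of_mem _ hq)) d)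
    split_ifs with hd
    · rintro _ ⟨v, hv, rfl⟩
      have := h p List.mem_cons_self _ v hv
      rwa [Nat.sub_add_cancel hd] at this
    · exact bot_le

lemma img_perm {L L' : List (ℕ × R)} (hp : L.Perm L') (d : ℕ) :
    img act deg base L d = img act deg base L' d := by
  induction hp with
  | nil => rfl
  | cons x _ ih => simp [img, ih]
  | swap x y l => simp [img, sup_left_comm]
  | trans _ _ ih₁ ih₂ => rw [ih₁, ih₂]

lemma reg_perm {L L' : List (ℕ × R)} (hp : L.Perm L') : Reg act deg base L ↔ Reg act deg base L' := by
  have h : hq act deg base L = hq act deg base L' := funext fun d => by rw [hq, hq, img_perm hp]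
  rw [Reg, Reg, h, divList_perm (hp.map Prod.fst)]

lemma act_img (p : ℕ × R) (hp : Raises act deg p) (hpb : Raises act base p) : ∀ (L : List (ℕ × R)) (d : ℕ) (v : N),
    v ∈ img act deg base L d → act p.2 v ∈ img act deg base L (d + p.1)
  | [], d, v, hv => hpb d v hv
  | q :: L, d, v, hv => by
    obtain ⟨x, hx, y, hy, rfl⟩ := Submodule.mem_sup.1 hv
    rw [map_add]
    refine Submodule.add_mem_sup ?_ (act_img p hp hpb L d y hy)
    split_ifs at hx with hd
    · obtain ⟨w, hw, rfl⟩ := hx
      rw [if_pos (Nat.le_trans hd (Nat.le_add_right _ _)), ← Module.End.mul_apply, ← map_mul,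
        mul_comm, map_mul, Module.End.mul_apply]
      refine ⟨act p.2 w, ?_, rfl⟩
      rw [show d + p.1 - q.1 = d - q.1 + p.1 by omega]
      exact hp _ w hw
    · rw [(Submodule.mem_bot D).1 hx, map_zero]
      exact zero_mem _

section step

variable [hfin : ∀ d, FiniteDimensional D (deg d)] {p : ℕ × R} {L : List (ℕ × R)}
  (hpos : 0 < p.1) (hp : Raises act deg p) (hpb : Raises act base p) (hb : ∀ d, base d ≤ deg d) (hL : ∀ q ∈ L, Raises act deg q)

include hp hpb hb hL in
lemma hq_step (e : ℕ) :
    hq act deg base L (e + p.1) ≤ hq act deg base (p :: L) (e + p.1) + hq act deg base L e ∧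
      (hq act deg base L (e + p.1) = hq act deg base (p :: L) (e + p.1) + hq act deg base L e ↔
        ∀ v ∈ deg e, act p.2 v ∈ img act deg base L (e + p.1) → v ∈ img act deg base L e) := by
  set S := img act deg base L (e + p.1) with hS
  have hSle : S ≤ deg (e + p.1) := img_le hb hL _
  have hIle : img act deg base L e ≤ deg e := img_le hb hL _
  have hmap : (deg e).map (act p.2) ≤ deg (e + p.1) := by
    rintro _ ⟨v, hv, rfl⟩; exact hp e v hv
  have hcons : img act deg base (p :: L) (e + p.1) = (deg e).map (act p.2) ⊔ S := by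
    simp [img, hS]
  set φ : deg e →ₗ[D] deg (e + p.1) ⧸ S.comap (deg (e + p.1)).subtype :=
    (S.comap (deg (e + p.1)).subtype).mkQ.comp ((act p.2).restrict fun v hv => hp e v hv) with hφ
  have hker : LinearMap.ker φ = (S.comap (act p.2)).comap (deg e).subtype := by
    ext v
    simp [hφ, Submodule.Quotient.mk_eq_zero]
  have hsub : ∀ (W : Submodule D N) (i : ℕ), W ≤ deg i →
      finrank D (W.comap (deg i).subtype) = finrank D W := fun W i h =>
    (Submodule.comapSubtypeEquivOfLe h).finrank_eq
  have hrange : LinearMap.range φ = (((deg e).map (act p.2) ⊔ S).comap (deg (e + p.1)).subtype).map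
      (S.comap (deg (e + p.1)).subtype).mkQ := by
    apply le_antisymm
    · rintro _ ⟨v, rfl⟩
      exact ⟨_, Submodule.mem_sup_left ⟨v, v.2, rfl⟩, rfl⟩
    · rintro _ ⟨u, hu, rfl⟩
      obtain ⟨x, ⟨v, hv, rfl⟩, y, hy, hxy⟩ := Submodule.mem_sup.1 hu
      refine ⟨⟨v, hv⟩, ?_⟩
      rw [hφ, LinearMap.comp_apply, Submodule.mkQ_apply, Submodule.mkQ_apply, Submodule.Quotient.eq]
      show act p.2 v - (u : N) ∈ S
      have hu' : act p.2 v + y = (u : N) := hxy
      rw [← hu', sub_add_cancel_left]
      exact neg_mem hy
  have h1 := φ.finrank_range_add_finrank_ker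
  have h2 := finrank_map_mkQ_add (S := S.comap (deg (e + p.1)).subtype)
    (T := ((deg e).map (act p.2) ⊔ S).comap (deg (e + p.1)).subtype)
    (Submodule.comap_mono le_sup_right)
  rw [hsub _ _ (sup_le hmap hSle), hsub _ _ hSle, ← hrange] at h2
  have hIker : (img act deg base L e).comap (deg e).subtype ≤ LinearMap.ker φ := by
    rw [hker]
    exact fun v hv => act_img p hp hpb L e _ hv
  have h3 := Submodule.finrank_mono hIker
  rw [hsub _ _ hIle] at h3
  have h4 : finrank D ↥((deg e).map (act p.2) ⊔ S) ≤ finrank D (deg (e + p.1)) :=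
    Submodule.finrank_mono (sup_le hmap hSle)
  have h5 : finrank D (img act deg base L e) ≤ finrank D (deg e) := Submodule.finrank_mono hIle
  unfold hq
  rw [hcons, ← hS]
  refine ⟨by omega, ?_, ?_⟩
  · intro h v hv hpv
    have heq := Submodule.eq_of_le_of_finrank_le hIker (by rw [hsub _ _ hIle]; omega)
    have : (⟨v, hv⟩ : deg e) ∈ LinearMap.ker φ := by rw [hker]; exact hpv
    rwa [← heq] at this
  · intro h
    have : LinearMap.ker φ ≤ (img act deg base L e).comap (deg e).subtype := by
      rw [hker]
      exact fun v hv => h v v.2 hv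
    have := Submodule.finrank_mono this
    rw [hsub _ _ hIle] at this
    omega
where
  finrank_map_mkQ_add {V : Type _} [AddCommGroup V] [Module D V] [FiniteDimensional D V]
      {S T : Submodule D V} (h : S ≤ T) :
      finrank D (T.map S.mkQ) + finrank D S = finrank D T := by
    have := (S.mkQ.domRestrict T).finrank_range_add_finrank_ker
    rwa [LinearMap.range_domRestrict, LinearMap.ker_domRestrict, Submodule.ker_mkQ,
      (Submodule.comapSubtypeEquivOfLe h).finrank_eq] at this

include hp hpb hb hL in
lemma hq_lt (d : ℕ) (hd : d < p.1) : hq act deg base (p :: L) d = hq act deg base L d := by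
  have h : ¬ p.1 ≤ d := by omega
  have e : img act deg base (p :: L) d = img act deg base L d := by rw [img, if_neg h, bot_sup_eq]
  rw [hq, hq, e]

include hpos hp hpb hb hL in
lemma hq_le_divOp (d : ℕ) : hq act deg base L d ≤ divOp p.1 (hq act deg base (p :: L)) d := by
  induction d using Nat.strong_induction_on with
  | _ d ih =>
    rcases Nat.lt_or_ge d p.1 with hd | hd
    · rw [divOp_of_lt hpos _ hd, hq_lt hp hpb hb hL d hd]
    · obtain ⟨e, rfl⟩ : ∃ e, d = e + p.1 := ⟨d - p.1, by omega⟩
      rw [divOp_add hpos]
      exact (hq_step hp hpb hb hL e).1.trans (Nat.add_le_add_left (ih e (by omega)) _)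

include hpos hp hpb hb hL in
lemma injMod_iff : InjMod act deg base p L ↔ hq act deg base L = divOp p.1 (hq act deg base (p :: L)) := by
  constructor
  · intro h
    refine divOp_unique hpos _ _ (fun d hd => (hq_lt hp hpb hb hL d hd).symm) fun e => ?_
    exact ((hq_step hp hpb hb hL e).2).2 (h e)
  · intro h e v hv hpv
    refine ((hq_step hp hpb hb hL e).2).1 ?_ v hv hpv
    rw [h, divOp_add hpos]

end step

variable [hfin : ∀ d, FiniteDimensional D (deg d)] (hb : ∀ d, base d ≤ deg d)

/-- Well-behaved lists. -/
def Good (act : R →* Module.End D N) (deg base : ℕ → Submodule D N) (L : List (ℕ × R)) : Prop :=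
  ∀ p ∈ L, 0 < p.1 ∧ Raises act deg p ∧ Raises act base p

include hb in
lemma hq_nil_le : ∀ {L : List (ℕ × R)}, Good act deg base L → ∀ d,
    hq act deg base [] d ≤ divList (L.map Prod.fst) (hq act deg base L) d
  | [], _, _ => le_rfl
  | p :: L, h, d => by
    have hL : Good act deg base L := fun q hq => h q (List.mem_cons_of_mem _ hq)
    have hp := h p List.mem_cons_self
    refine (hq_nil_le hL d).trans ?_
    rw [List.map_cons, divList, ← divList_divOp]
    exact divList_mono _ (hq_le_divOp hp.1 hp.2.1 hp.2.2 hb fun q hq => (hL q hq).2.1) d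

include hb in
lemma reg_cons {p : ℕ × R} {L : List (ℕ × R)} (h : Good act deg base (p :: L)) :
    Reg act deg base (p :: L) ↔ InjMod act deg base p L ∧ Reg act deg base L := by
  have hL : Good act deg base L := fun q hq => h q (List.mem_cons_of_mem _ hq)
  have hL' : ∀ q ∈ L, Raises act deg q := fun q hq => (hL q hq).2.1
  have hp := h p List.mem_cons_self
  rw [injMod_iff hp.1 hp.2.1 hp.2.2 hb hL']
  simp only [Reg, List.map_cons, divList, ← divList_divOp]
  constructor
  · intro he
    have hreg : hq act deg base [] = divList (L.map Prod.fst) (hq act deg base L) := funext fun d =>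
      le_antisymm (hq_nil_le hb hL d)
        ((divList_mono _ (hq_le_divOp hp.1 hp.2.1 hp.2.2 hb hL') d).trans (congrFun he d).ge)
    exact ⟨divList_le_eq _ (hq_le_divOp hp.1 hp.2.1 hp.2.2 hb hL') (hreg.symm.trans he), hreg⟩
  · rintro ⟨h1, h2⟩
    rwa [← h1]

include hb in
/-- In a regular sequence a product may be replaced by one of its factors. -/
theorem reg_replace_head {a b : ℕ} {f h : R} {L : List (ℕ × R)} (ha : 0 < a)
    (hf : Raises act deg (a, f)) (hh : Raises act deg (b, h))
    (hfb : Raises act base (a, f)) (hhb : Raises act base (b, h)) (hL : Good act deg base L)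
    (hr : Reg act deg base ((a + b, h * f) :: L)) : Reg act deg base ((a, f) :: L) := by
  have hg : Raises act deg (a + b, h * f) := fun i v hv => by
    simp only [map_mul, Module.End.mul_apply]
    have := hh _ _ (hf i v hv)
    simpa [Nat.add_assoc] using this
  have hgb : Raises act base (a + b, h * f) := fun i v hv => by
    simp only [map_mul, Module.End.mul_apply]
    have := hhb _ _ (hfb i v hv)
    simpa [Nat.add_assoc] using this
  have hgood : Good act deg base ((a + b, h * f) :: L) :=
    List.forall_mem_cons.2 ⟨⟨by simp; omega, hg, hgb⟩, hL⟩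
  obtain ⟨hinj, hreg⟩ := (reg_cons hb hgood).1 hr
  refine (reg_cons hb (List.forall_mem_cons.2 ⟨⟨ha, hf, hfb⟩, hL⟩)).2 ⟨fun d v hv hfv => ?_, hreg⟩
  refine hinj d v hv ?_
  simp only [map_mul, Module.End.mul_apply]
  have := act_img (b, h) hh hhb L (d + a) _ hfv
  simpa [Nat.add_assoc] using this

include hb in
/-- In a regular sequence all products may be replaced by factors. -/
theorem reg_replace {ι : Type*} (a b : ι → ℕ) (f h : ι → R) (ha : ∀ i, 0 < a i)
    (hf : ∀ i, Raises act deg (a i, f i)) (hh : ∀ i, Raises act deg (b i, h i))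
    (hfb : ∀ i, Raises act base (a i, f i)) (hhb : ∀ i, Raises act base (b i, h i)) :
    ∀ (l : List ι) (L : List (ℕ × R)), Good act deg base L →
      Reg act deg base (l.map (fun i => (a i + b i, h i * f i)) ++ L) →
      Reg act deg base (l.map (fun i => (a i, f i)) ++ L) := by
  have hg : ∀ i, Raises act deg (a i + b i, h i * f i) := fun i j v hv => by
    simp only [map_mul, Module.End.mul_apply]
    have := hh i _ _ (hf i j v hv)
    simpa [Nat.add_assoc] using this
  have hgb : ∀ i, Raises act base (a i + b i, h i * f i) := fun i j v hv => by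
    simp only [map_mul, Module.End.mul_apply]
    have := hhb i _ _ (hfb i j v hv)
    simpa [Nat.add_assoc] using this
  intro l
  induction l with
  | nil => exact fun L _ h => h
  | cons i l ih =>
    intro L hL hr
    rw [List.map_cons, List.cons_append] at hr ⊢
    have hgood : Good act deg base (l.map (fun i => (a i + b i, h i * f i)) ++ L) := fun q hq => by
      rcases List.mem_append.1 hq with h' | h'
      · obtain ⟨j, -, rfl⟩ := List.mem_map.1 h'
        exact ⟨by have := ha j; simp; omega, hg j, hgb j⟩
      · exact hL q h'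
    have h1 := reg_replace_head hb (ha i) (hf i) (hh i) (hfb i) (hhb i) hgood hr
    have hL' : Good act deg base ((a i, f i) :: L) := List.forall_mem_cons.2 ⟨⟨ha i, hf i, hfb i⟩, hL⟩
    have h2 := ih _ hL' ((reg_perm List.perm_middle).2 h1)
    exact (reg_perm List.perm_middle).1 h2

/-- The Hilbert function modulo a regular sequence on a free module is that of the box. -/
theorem hq_eq_boxFn {L : List (ℕ × R)} (hL : Good act deg base L) (hr : Reg act deg base L)
    (hfree : hq act deg base [] = freeFn L.length) : hq act deg base L = boxFn (L.map Prod.fst) := by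
  refine divList_injective (L.map Prod.fst) ?_
  rw [← hr, hfree, divList_boxFn _ fun x hx => ?_, List.length_map]
  obtain ⟨p, hp, rfl⟩ := List.mem_map.1 hx
  exact (hL p hp).1

/-- Conversely, the Hilbert function of the box makes a list regular. -/
theorem reg_of_hq {L : List (ℕ × R)} (hL : Good act deg base L)
    (hfree : hq act deg base [] = freeFn L.length) (hbox : hq act deg base L = boxFn (L.map Prod.fst)) :
    Reg act deg base L := by
  rw [Reg, hbox, hfree, divList_boxFn _ fun x hx => ?_, List.length_map]
  obtain ⟨p, hp, rfl⟩ := List.mem_map.1 hx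
  exact (hL p hp).1

end Vale.Agent.P200.Skew
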