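import Mathlib

/-!
Hilbert function operators: dividing by `1 - t ^ a` and multiplying by `1 + t + ... + t ^ (a - 1)`.
-/

namespace Vale.Agent.P200.Skew

/-- Coefficients of a series divided by `1 - t ^ a`. -/
def divOp (a : ℕ) (h : ℕ → ℕ) (d : ℕ) : ℕ :=
  if 0 < a then ∑ j ∈ Finset.range (d / a + 1), h (d - j * a) else h d

/-- Coefficients of a series times `1 + t + ... + t ^ (a - 1)`. -/
def cutOp (a : ℕ) (h : ℕ → ℕ) (d : ℕ) : ℕ :=
  ∑ j ∈ Finset.range (min a (d + 1)), h (d - j)

/-- Iterated division. -/
def divList : List ℕ → (ℕ → ℕ) → ℕ → ℕ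
  | [], h => h
  | a :: L, h => divOp a (divList L h)

/-- The Hilbert function of a point. -/
def delta (d : ℕ) : ℕ := if d = 0 then 1 else 0

/-- The Hilbert function of a box. -/
def boxFn : List ℕ → ℕ → ℕ
  | [] => delta
  | a :: L => cutOp a (boxFn L)

/-- The Hilbert function of the polynomials in `r` variables. -/
def freeFn (r : ℕ) : ℕ → ℕ := divList (List.replicate r 1) delta

variable {a b : ℕ}

lemma divOp_of_lt (ha : 0 < a) (h : ℕ → ℕ) {d : ℕ} (hd : d < a) : divOp a h d = h d := by
  simp [divOp, ha, Nat.div_eq_of_lt hd]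

lemma divOp_add (ha : 0 < a) (h : ℕ → ℕ) (d : ℕ) :
    divOp a h (d + a) = h (d + a) + divOp a h d := by
  simp only [divOp, if_pos ha, Nat.add_div_right d ha]
  rw [Finset.sum_range_succ', add_comm, zero_mul, Nat.sub_zero]
  congr 1
  refine Finset.sum_congr rfl fun j _ => ?_
  rw [add_mul, one_mul, Nat.add_sub_add_right]

/-- The recurrence determines the division. -/
lemma divOp_unique (ha : 0 < a) (h u : ℕ → ℕ) (h1 : ∀ d, d < a → u d = h d)
    (h2 : ∀ d, u (d + a) = h (d + a) + u d) : u = divOp a h := by
  funext d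
  induction d using Nat.strong_induction_on with
  | _ d ih =>
    rcases Nat.lt_or_ge d a with hd | hd
    · rw [h1 d hd, divOp_of_lt ha h hd]
    · obtain ⟨e, rfl⟩ : ∃ e, d = e + a := ⟨d - a, by omega⟩
      rw [h2, divOp_add ha, ih e (by omega)]

lemma divOp_mono {h h' : ℕ → ℕ} (hh : ∀ d, h d ≤ h' d) (d : ℕ) : divOp a h d ≤ divOp a h' d := by
  unfold divOp
  split_ifs
  · exact Finset.sum_le_sum fun j _ => hh _
  · exact hh d

lemma divOp_le_eq {h h' : ℕ → ℕ} (hh : ∀ d, h d ≤ h' d) (he : divOp a h = divOp a h') :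
    h = h' := by
  funext d
  have hd := congrFun he d
  unfold divOp at hd
  split_ifs at hd with ha
  · have := (Finset.sum_eq_sum_iff_of_le fun j _ => hh (d - j * a)).1 hd 0 (by simp)
    simpa using this
  · exact hd

lemma divOp_injective {h h' : ℕ → ℕ} (he : divOp a h = divOp a h') : h = h' := by
  funext d
  rcases Nat.eq_zero_or_pos a with rfl | ha
  · simpa [divOp] using congrFun he d
  · rcases Nat.lt_or_ge d a with hd | hd
    · simpa [divOp_of_lt ha _ hd] using congrFun he d
    · obtain ⟨e, rfl⟩ : ∃ e, d = e + a := ⟨d - a, by omega⟩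
      have h1 := congrFun he (e + a)
      rw [divOp_add ha, divOp_add ha, congrFun he e] at h1
      omega

lemma divOp_comm (h : ℕ → ℕ) : divOp a (divOp b h) = divOp b (divOp a h) := by
  rcases Nat.eq_zero_or_pos a with rfl | ha
  · funext d; simp [divOp]
  rcases Nat.eq_zero_or_pos b with rfl | hb
  · funext d; simp [divOp]
  symm
  refine divOp_unique ha _ _ (fun d hd => ?_) fun d => ?_
  · unfold divOp
    simp only [if_pos ha, if_pos hb]
    refine Finset.sum_congr rfl fun j _ => ?_
    simp [Nat.div_eq_of_lt (lt_of_le_of_lt (Nat.sub_le d (j * b)) hd)]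
  · induction d using Nat.strong_induction_on with
    | _ d ih =>
      rcases Nat.lt_or_ge d b with hd | hd
      · rw [divOp_of_lt hb (divOp a h) hd]
        rcases Nat.lt_or_ge (d + a) b with hda | hda
        · rw [divOp_of_lt hb _ hda, divOp_of_lt hb _ hda, divOp_add ha]
        · obtain ⟨e, he⟩ : ∃ e, d + a = e + b := ⟨d + a - b, by omega⟩
          have hea : e < a := by omega
          rw [he, divOp_add hb, divOp_add hb, ← he, divOp_add ha,
            show divOp b (divOp a h) e = divOp b h e by
              unfold divOp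
              simp only [if_pos ha, if_pos hb]
              refine Finset.sum_congr rfl fun j _ => ?_
              simp [Nat.div_eq_of_lt (lt_of_le_of_lt (Nat.sub_le e (j * b)) hea)]]
          omega
      · obtain ⟨e, rfl⟩ : ∃ e, d = e + b := ⟨d - b, by omega⟩
        have hi := ih e (by omega)
        rw [show e + b + a = e + a + b by omega, divOp_add hb, divOp_add hb, hi, divOp_add hb,
          show e + a + b = e + b + a by omega, divOp_add ha]
        omega

lemma divList_mono : ∀ (L : List ℕ) {h h' : ℕ → ℕ}, (∀ d, h d ≤ h' d) →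
    ∀ d, divList L h d ≤ divList L h' d
  | [], _, _, hh => hh
  | _ :: L, _, _, hh => divOp_mono (divList_mono L hh)

lemma divList_le_eq : ∀ (L : List ℕ) {h h' : ℕ → ℕ}, (∀ d, h d ≤ h' d) →
    divList L h = divList L h' → h = h'
  | [], _, _, _, he => he
  | _ :: L, _, _, hh, he => divList_le_eq L hh (divOp_le_eq (divList_mono L hh) he)

lemma divList_injective : ∀ (L : List ℕ) {h h' : ℕ → ℕ}, divList L h = divList L h' → h = h'
  | [], _, _, he => he
  | _ :: L, _, _, he => divList_injective L (divOp_injective he)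

lemma divList_divOp : ∀ (L : List ℕ) (h : ℕ → ℕ), divList L (divOp a h) = divOp a (divList L h)
  | [], _ => rfl
  | b :: L, h => by simp [divList, divList_divOp L h, divOp_comm]

lemma divList_perm {L L' : List ℕ} (hp : L.Perm L') (h : ℕ → ℕ) : divList L h = divList L' h := by
  induction hp with
  | nil => rfl
  | cons x _ ih => simp [divList, ih]
  | swap x y l => simp [divList, divOp_comm]
  | trans _ _ ih₁ ih₂ => rw [ih₁, ih₂]

lemma divOp_cutOp (ha : 0 < a) (h : ℕ → ℕ) : divOp a (cutOp a h) = divOp 1 h := by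
  symm
  refine divOp_unique ha _ _ (fun d hd => ?_) fun d => ?_
  · simp [divOp, cutOp, Nat.min_eq_right (show d + 1 ≤ a by omega)]
  · simp only [divOp, cutOp, if_pos one_pos, Nat.div_one, mul_one,
      Nat.min_eq_left (show a ≤ d + a + 1 by omega)]
    rw [show d + a + 1 = a + (d + 1) by omega, Finset.sum_range_add]
    congr 1
    exact Finset.sum_congr rfl fun j _ => by congr 1; omega

lemma cutOp_divOp (ha : 0 < a) (h : ℕ → ℕ) : cutOp a (divOp b h) = divOp b (cutOp a h) :=
  divOp_injective (a := a) <| by
    rw [divOp_cutOp ha, divOp_comm, ← divOp_cutOp ha, divOp_comm]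

lemma cutOp_divList (ha : 0 < a) : ∀ (L : List ℕ) (h : ℕ → ℕ),
    cutOp a (divList L h) = divList L (cutOp a h)
  | [], _ => rfl
  | b :: L, h => by simp [divList, cutOp_divOp ha, cutOp_divList ha L h]

/-- The box is the free module divided by forms of the degrees of its sides. -/
theorem divList_boxFn : ∀ (L : List ℕ), (∀ x ∈ L, 0 < x) →
    divList L (boxFn L) = freeFn L.length
  | [], _ => rfl
  | a :: L, h => by
    have ha : 0 < a := h a (by simp)
    have ih := divList_boxFn L fun x hx => h x (List.mem_cons_of_mem _ hx)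
    simp only [divList, boxFn, freeFn, List.length_cons, List.replicate_succ]
    rw [← cutOp_divList ha, ih, divOp_cutOp ha]
    rfl

end Vale.Agent.P200.Skew
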