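import Vale.Agent.P200.Split.Good

/-!
Slicing stable families of subspaces by the powers of an operator.
-/

namespace Vale.Agent.P200.Skew.Slices

open Module CL

set_option linter.unusedSectionVars false

variable {D : Type*} [DivisionRing D] {N : Type*} [AddCommGroup N] [Module D N]
  (deg : ℕ → Submodule D N)

/-- The codimension of a family in each degree. -/
noncomputable def codim (U : ℕ → Submodule D N) (d : ℕ) : ℕ :=
  finrank D (deg d) - finrank D (U d)

/-- `φ` maps the family one degree (or `a` degrees) up into itself. -/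
def Maps (a : ℕ) (φ : Module.End D N) (U : ℕ → Submodule D N) : Prop :=
  ∀ d, ∀ v ∈ U d, φ v ∈ U (d + a)

/-- A family between a base and everything, stable under operators, absorbing others. -/
structure Stable (base : ℕ → Submodule D N) (ops : Set (ℕ × Module.End D N))
    (killed : Set (ℕ × Module.End D N)) (U : ℕ → Submodule D N) : Prop where
  base_le : ∀ d, base d ≤ U d
  le_deg : ∀ d, U d ≤ deg d
  maps : ∀ q ∈ ops, Maps q.1 q.2 U
  absorbs : ∀ q ∈ killed, ∀ d, ∀ v ∈ deg d, q.2 v ∈ U (d + q.1)

/-- Every stable family has codimensions growing as in the box of `a`. -/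
def GoodFor {n : ℕ} (a : Fin n → ℕ) (base : ℕ → Submodule D N)
    (ops killed : Set (ℕ × Module.End D N)) : Prop :=
  ∀ U, Stable deg base ops killed U → ∀ d, Split.GoodSeq a (codim deg U) d

variable (φ : Module.End D N)

/-- The base enlarged by the image of `φ`. -/
def baseWith (base : ℕ → Submodule D N) (d : ℕ) : Submodule D N :=
  base d ⊔ if 1 ≤ d then (deg (d - 1)).map φ else ⊥

/-- The layer at `φ ^ k`. -/
def layer (base U : ℕ → Submodule D N) (k d : ℕ) : Submodule D N :=
  baseWith deg φ base d ⊔ (U (d + k)).comap (φ ^ k) ⊓ deg d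

variable {deg φ}
variable {base U : ℕ → Submodule D N}

lemma pow_deg (hφ : Maps 1 φ deg) : ∀ k, Maps k (φ ^ k) deg
  | 0 => fun d v hv => by simpa using hv
  | k + 1 => fun d v hv => by
    rw [pow_succ', Module.End.mul_apply, ← add_assoc]
    exact hφ _ _ (pow_deg hφ k d v hv)

lemma baseWith_le (hφ : Maps 1 φ deg) (hb : ∀ d, base d ≤ deg d) (d : ℕ) :
    baseWith deg φ base d ≤ deg d := by
  refine sup_le (hb d) ?_
  split_ifs with hd
  · rintro _ ⟨v, hv, rfl⟩
    have := hφ _ v hv
    rwa [Nat.sub_add_cancel hd] at this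
  · exact bot_le

lemma layer_le (hφ : Maps 1 φ deg) (hb : ∀ d, base d ≤ deg d) (k d : ℕ) :
    layer deg φ base U k d ≤ deg d := sup_le (baseWith_le hφ hb d) inf_le_right

lemma mem_baseWith {d : ℕ} {w : N} (hw : w ∈ deg d) : φ w ∈ baseWith deg φ base (d + 1) := by
  refine Submodule.mem_sup_right ?_
  rw [if_pos (Nat.le_add_left 1 d), Nat.add_sub_cancel]
  exact ⟨w, hw, rfl⟩

section slices

variable [∀ d, FiniteDimensional D (deg d)] (hφ : Maps 1 φ deg) (hb : ∀ d, base d ≤ U d)
  (hU : ∀ d, U d ≤ deg d) (hφb : Maps 1 φ base)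

/-- The family together with the images of the `k`-th power. -/
def fil (deg : ℕ → Submodule D N) (φ : Module.End D N) (U : ℕ → Submodule D N) (k d : ℕ) :
    Submodule D N :=
  U d ⊔ if k ≤ d then (deg (d - k)).map (φ ^ k) else ⊥

include hφ hU in
lemma fil_le (k d : ℕ) : fil deg φ U k d ≤ deg d := by
  refine sup_le (hU d) ?_
  split_ifs with hd
  · rintro _ ⟨v, hv, rfl⟩
    have := pow_deg hφ k _ v hv
    rwa [Nat.sub_add_cancel hd] at this
  · exact bot_le

include hφ hU in
lemma fil_succ_le (k d : ℕ) : fil deg φ U (k + 1) d ≤ fil deg φ U k d := by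
  refine sup_le le_sup_left ?_
  split_ifs with hd
  · rintro _ ⟨v, hv, rfl⟩
    refine Submodule.mem_sup_right ?_
    rw [if_pos (by omega : k ≤ d)]
    refine ⟨φ v, ?_, by rw [pow_succ, Module.End.mul_apply]⟩
    have := hφ _ v hv
    rwa [show d - (k + 1) + 1 = d - k by omega] at this
  · exact bot_le

include hφ hb hU hφb in
lemma finrank_fil (k e : ℕ) :
    finrank D (fil deg φ U k (e + k)) =
      finrank D (fil deg φ U (k + 1) (e + k)) + codim deg (layer deg φ base U k) e := by
  set S := fil deg φ U (k + 1) (e + k) with hS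
  have hsub : ∀ (W : Submodule D N) (i : ℕ), W ≤ deg i →
      finrank D (W.comap (deg i).subtype) = finrank D W := fun W i h =>
    (Submodule.comapSubtypeEquivOfLe h).finrank_eq
  set ψ : deg e →ₗ[D] deg (e + k) ⧸ S.comap (deg (e + k)).subtype :=
    (S.comap (deg (e + k)).subtype).mkQ.comp ((φ ^ k).restrict fun v hv => pow_deg hφ k e v hv)
    with hψ
  have hSU : U (e + k) ≤ S := le_sup_left
  have hker : LinearMap.ker ψ = (layer deg φ base U k e).comap (deg e).subtype := by
    ext ⟨v, hv⟩
    simp only [hψ, LinearMap.mem_ker, LinearMap.comp_apply, Submodule.mkQ_apply,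
      Submodule.Quotient.mk_eq_zero, Submodule.mem_comap]
    show (φ ^ k) v ∈ S ↔ v ∈ layer deg φ base U k e
    constructor
    · intro h
      obtain ⟨u, hu, w, hw, huw⟩ := Submodule.mem_sup.1 h
      split_ifs at hw with hle
      · obtain ⟨w', hw', rfl⟩ := hw
        rw [show e + k - (k + 1) = e - 1 by omega] at hw'
        have he : 1 ≤ e := by omega
        have hφw : φ w' ∈ deg e := by
          have := hφ _ w' hw'
          rwa [Nat.sub_add_cancel he] at this
        rw [show v = φ w' + (v - φ w') by abel]
        refine Submodule.add_mem_sup ?_ ⟨?_, sub_mem hv hφw⟩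
        · have := mem_baseWith (base := base) (φ := φ) hw'
          rwa [Nat.sub_add_cancel he] at this
        · rw [SetLike.mem_coe, Submodule.mem_comap, map_sub, ← huw,
            show (φ ^ k) (φ w') = (φ ^ (k + 1)) w' by rw [pow_succ, Module.End.mul_apply],
            add_sub_cancel_right]
          exact hu
      · rw [(Submodule.mem_bot D).1 hw, add_zero] at huw
        exact Submodule.mem_sup_right ⟨by rw [SetLike.mem_coe, Submodule.mem_comap, ← huw]; exact hu, hv⟩
    · intro h
      obtain ⟨x, hx, y, hy, rfl⟩ := Submodule.mem_sup.1 h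
      rw [map_add]
      refine add_mem ?_ (hSU hy.1)
      obtain ⟨b, hb', w, hw, rfl⟩ := Submodule.mem_sup.1 hx
      rw [map_add]
      refine add_mem (hSU ?_) ?_
      · have key : ∀ j, Maps j (φ ^ j) base := by
          intro j
          induction j with
          | zero => intro d u hu; simpa using hu
          | succ j ih =>
            intro d u hu
            rw [pow_succ', Module.End.mul_apply, ← add_assoc]
            exact hφb _ _ (ih d u hu)
        exact hb _ (key k e b hb')
      · split_ifs at hw with he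
        · obtain ⟨w', hw', rfl⟩ := hw
          refine Submodule.mem_sup_right ?_
          rw [if_pos (by omega : k + 1 ≤ e + k), show e + k - (k + 1) = e - 1 by omega]
          exact ⟨w', hw', by rw [pow_succ, Module.End.mul_apply]⟩
        · rw [(Submodule.mem_bot D).1 hw, map_zero]; exact zero_mem _
  have hTle := fil_le hφ hU k (e + k)
  have hST : S ≤ fil deg φ U k (e + k) := fil_succ_le hφ hU k (e + k)
  have hrange : LinearMap.range ψ = ((fil deg φ U k (e + k)).comap (deg (e + k)).subtype).map
      (S.comap (deg (e + k)).subtype).mkQ := by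
    apply le_antisymm
    · rintro _ ⟨v, rfl⟩
      refine ⟨_, Submodule.mem_sup_right ?_, rfl⟩
      rw [if_pos (Nat.le_add_left k e), Nat.add_sub_cancel]
      exact ⟨v, v.2, rfl⟩
    · rintro _ ⟨u, hu, rfl⟩
      obtain ⟨x, hx, y, hy, hxy⟩ := Submodule.mem_sup.1 hu
      rw [if_pos (Nat.le_add_left k e), Nat.add_sub_cancel] at hy
      obtain ⟨v, hv, rfl⟩ := hy
      refine ⟨⟨v, hv⟩, ?_⟩
      rw [hψ, LinearMap.comp_apply, Submodule.mkQ_apply, Submodule.mkQ_apply, Submodule.Quotient.eq]
      show (φ ^ k) v - (u : N) ∈ S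
      have hu' : x + (φ ^ k) v = (u : N) := hxy
      rw [← hu', sub_add_cancel_right]
      exact neg_mem (hSU hx)
  have h1 := ψ.finrank_range_add_finrank_ker
  have h2 := ((S.comap (deg (e + k)).subtype).mkQ.domRestrict
    ((fil deg φ U k (e + k)).comap (deg (e + k)).subtype)).finrank_range_add_finrank_ker
  rw [LinearMap.range_domRestrict, LinearMap.ker_domRestrict, Submodule.ker_mkQ,
    (Submodule.comapSubtypeEquivOfLe (Submodule.comap_mono hST)).finrank_eq, ← hrange,
    hsub _ _ hTle, hsub S _ (hST.trans hTle)] at h2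
  rw [hker, hsub _ _ (layer_le hφ (fun d => (hb d).trans (hU d)) k e)] at h1
  have h3 : finrank D (layer deg φ base U k e) ≤ finrank D (deg e) :=
    Submodule.finrank_mono (layer_le hφ (fun d => (hb d).trans (hU d)) k e)
  unfold codim
  omega

include hφ hb hU hφb in
/-- The codimension is the sum over the layers. -/
theorem codim_eq_sum {A : ℕ} (hA : ∀ d, ∀ v ∈ deg d, (φ ^ A) v ∈ U (d + A)) (d : ℕ) :
    codim deg U d = ∑ k ∈ (Finset.range (d + 1)).filter (· < A),
      codim deg (layer deg φ base U k) (d - k) := by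
  have htel : ∀ m, m ≤ d + 1 → finrank D (deg d) =
      finrank D (fil deg φ U m d) + ∑ k ∈ Finset.range m, codim deg (layer deg φ base U k) (d - k) := by
    intro m hm
    induction m with
    | zero =>
      have : fil deg φ U 0 d = deg d := le_antisymm (fil_le hφ hU 0 d) fun v hv => by
        refine Submodule.mem_sup_right ?_
        rw [if_pos (Nat.zero_le d), Nat.sub_zero]
        exact ⟨v, hv, by simp⟩
      rw [this, Finset.range_zero, Finset.sum_empty, add_zero]
    | succ m ih =>
      rw [ih (by omega), Finset.sum_range_succ]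
      have := finrank_fil hφ hb hU hφb m (d - m)
      rw [Nat.sub_add_cancel (by omega : m ≤ d)] at this
      omega
  have hend : fil deg φ U (min A (d + 1)) d = U d := by
    refine sup_eq_left.2 ?_
    split_ifs with h
    · rcases le_total A (d + 1) with hle | hle
      · rw [min_eq_left hle] at h ⊢
        rintro _ ⟨v, hv, rfl⟩
        have := hA _ v hv
        rwa [Nat.sub_add_cancel h] at this
      · rw [min_eq_right hle] at h
        omega
    · exact bot_le
  have := htel (min A (d + 1)) (min_le_right _ _)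
  rw [hend] at this
  have he : (Finset.range (d + 1)).filter (· < A) = Finset.range (min A (d + 1)) := by
    ext k; simp; omega
  rw [he]
  unfold codim at this ⊢
  omega

end slices

/-- One more variable, bounded by a power of an operator in the family. -/
theorem goodFor_snoc [∀ d, FiniteDimensional D (deg d)] {n : ℕ} {a : Fin (n + 1) → ℕ}
    (ha : Monotone a) (hφ : Maps 1 φ deg) (hbase : ∀ d, base d ≤ deg d) (hφb : Maps 1 φ base)
    {ops ops' killed killed' : Set (ℕ × Module.End D N)}
    (hφops : (1, φ) ∈ ops) (hpow : (a (Fin.last n), φ ^ a (Fin.last n)) ∈ killed)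
    (hops : ops' ⊆ ops) (hkilled : killed' ⊆ killed)
    (hopdeg : ∀ q ∈ ops', Maps q.1 q.2 deg)
    (hopbase : ∀ q ∈ ops', Maps q.1 q.2 (baseWith deg φ base))
    (hcomm : ∀ q ∈ ops', ∀ k v, ∃ c : D, (φ ^ k) (q.2 v) = c • q.2 ((φ ^ k) v))
    (hkcomm : ∀ q ∈ killed', ∀ k v, ∃ c : D, (φ ^ k) (q.2 v) = c • q.2 ((φ ^ k) v))
    (hkdeg : ∀ q ∈ killed', Maps q.1 q.2 deg)
    (h : GoodFor deg (fun i : Fin n => a i.castSucc) (baseWith deg φ base) ops' killed') :
    GoodFor deg a base ops killed := by
  intro U hUst d
  have hUd : Maps 1 φ U := hUst.maps _ hφops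
  have hst : ∀ k, Stable deg (baseWith deg φ base) ops' killed' (layer deg φ base U k) := by
    intro k
    refine ⟨fun e => le_sup_left, fun e => layer_le hφ hbase k e, fun q hq e v hv => ?_,
      fun q hq e v hv => ?_⟩
    · obtain ⟨x, hx, y, hy, rfl⟩ := Submodule.mem_sup.1 hv
      rw [map_add]
      refine Submodule.add_mem_sup (hopbase q hq e x hx) ⟨?_, hopdeg q hq e y hy.2⟩
      obtain ⟨c, hc⟩ := hcomm q hq k y
      rw [SetLike.mem_coe, Submodule.mem_comap, hc]
      refine Submodule.smul_mem _ c ?_
      have := hUst.maps q (hops hq) _ _ hy.1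
      rwa [add_right_comm] at this
    · refine Submodule.mem_sup_right ⟨?_, hkdeg q hq e v hv⟩
      obtain ⟨c, hc⟩ := hkcomm q hq k v
      rw [SetLike.mem_coe, Submodule.mem_comap, hc]
      refine Submodule.smul_mem _ c ?_
      have := hUst.absorbs q (hkilled hq) _ _ (pow_deg hφ k e v hv)
      rwa [add_right_comm] at this
  have hsum : ∀ e, codim deg U e = ∑ k ∈ (Finset.range (e + 1)).filter (· < a (Fin.last n)),
      codim deg (layer deg φ base U k) (e - k) :=
    codim_eq_sum hφ hUst.base_le hUst.le_deg hφb fun e v hv => hUst.absorbs _ hpow e v hv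
  refine Split.goodSeq_stack ha (Fin.last n) (fun k => codim deg (layer deg φ base U k)) _
    (fun k hk t => ?_) (fun k hk hkd => ?_) fun e _ _ => hsum e
  · have := h _ (hst k) t
    simpa [Fin.succAbove_last, Function.comp_def] using this
  · have : FiniteDimensional D (layer deg φ base U (k + 1) (d - k)) :=
      Submodule.finiteDimensional_of_le (layer_le hφ hbase _ _)
    refine Nat.sub_le_sub_left (Submodule.finrank_mono (sup_le_sup_left ?_ _)) _
    intro v hv
    refine ⟨?_, hv.2⟩
    rw [SetLike.mem_coe, Submodule.mem_comap, pow_succ', Module.End.mul_apply, ← add_assoc]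
    exact hUd _ _ hv.1

end Vale.Agent.P200.Skew.Slices
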