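import Vale.Agent.P200.Basic
import Vale.Agent.P200.Skew.Frame
import Vale.Agent.P200.Quad.Layer

/-!
Monomial models for two arbitrary forms followed by forms with skew linear factorisations.
-/

namespace Vale.Agent.P200.Skew

open MvPolynomial Module
open scoped TensorProduct

universe u

variable {K : Type u} [Field K] {D : Type u} [DivisionRing D] [Algebra K D] {m : ℕ}

lemma exponent_ext {e e' : Fin (m + 2) →₀ ℕ} (ht : Frame.tail e = Frame.tail e') (h0 : e 0 = e' 0)
    (hd : e.degree = e'.degree) : e = e' := by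
  rw [Frame.degree_split, Frame.degree_split, ht, h0] at hd
  ext i
  induction i using Fin.cases with
  | zero => exact h0
  | succ i =>
    induction i using Fin.cases with
    | zero => exact Nat.add_left_cancel (Nat.add_right_cancel hd)
    | succ k => exact DFunLike.congr_fun ht k

lemma toLex_add_lt {σ : Type*} [LinearOrder σ] {a b : σ →₀ ℕ} (c : σ →₀ ℕ)
    (h : toLex a < toLex b) : toLex (a + c) < toLex (b + c) := by
  obtain ⟨i, h1, h2⟩ := Finsupp.Lex.lt_iff.1 h
  refine Finsupp.Lex.lt_iff.2 ⟨i, fun j hj => ?_, ?_⟩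
  · simpa using h1 j hj
  · simpa using h2

lemma toLex_add_le {σ : Type*} [LinearOrder σ] {a b : σ →₀ ℕ} (c : σ →₀ ℕ)
    (h : toLex a ≤ toLex b) : toLex (a + c) ≤ toLex (b + c) := by
  rcases eq_or_lt_of_le h with h | h
  · rw [show a = b from toLex.injective h]
  · exact (toLex_add_lt c h).le

namespace Frame

variable (F : Frame K D m)

/-- The value of an ordered monomial at the skew exponent `τ`. -/
noncomputable def tb (τ : Fin m →₀ ℕ) (e : Fin (m + 2) →₀ ℕ) : Polynomial D :=
  if tail e = τ then Polynomial.X ^ e 0 else 0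

/-- The coefficient at the skew exponent `τ`. -/
noncomputable def proj (τ : Fin m →₀ ℕ) :
    D ⊗[K] MvPolynomial (Fin (m + 2)) K →ₗ[D] Polynomial D :=
  F.basis.constr ℕ (tb τ)

lemma proj_mon (τ : Fin m →₀ ℕ) (e : Fin (m + 2) →₀ ℕ) : F.proj τ (F.mon e) = tb τ e := by
  rw [proj, ← F.basis_apply, Basis.constr_basis]

/-- The span of the monomials with skew exponent at least `τ`. -/
noncomputable def FS (τ : Fin m →₀ ℕ) : Submodule D (D ⊗[K] MvPolynomial (Fin (m + 2)) K) :=
  Submodule.span D (F.basis '' {e | toLex τ ≤ toLex (tail e)})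

lemma mem_FS {τ : Fin m →₀ ℕ} {t : D ⊗[K] MvPolynomial (Fin (m + 2)) K} :
    t ∈ F.FS τ ↔ ∀ e, F.basis.repr t e ≠ 0 → toLex τ ≤ toLex (tail e) := by
  rw [FS, Basis.mem_span_image]
  exact ⟨fun h e he => h (Finsupp.mem_support_iff.2 he),
    fun h e he => h e (Finsupp.mem_support_iff.1 he)⟩

lemma FS_zero : F.FS 0 = ⊤ :=
  eq_top_iff.2 fun t _ => F.mem_FS.2 fun e _ => Finsupp.toLex_monotone (zero_le (a := tail e))

lemma repr_degree {d : ℕ} {t : D ⊗[K] MvPolynomial (Fin (m + 2)) K}
    (ht : t ∈ TD D (Fin (m + 2)) K d) {e : Fin (m + 2) →₀ ℕ} (he : F.basis.repr t e ≠ 0) :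
    e.degree = d := by
  rw [← F.span_degree_eq] at ht
  have : F.mon '' {e | e.degree = d} = F.basis '' {e | e.degree = d} :=
    Set.image_congr fun e _ => (F.basis_apply e).symm
  rw [this, Basis.mem_span_image] at ht
  exact ht (Finsupp.mem_support_iff.2 he)

lemma coeff_proj {d : ℕ} {t : D ⊗[K] MvPolynomial (Fin (m + 2)) K}
    (ht : t ∈ TD D (Fin (m + 2)) K d) {τ : Fin m →₀ ℕ} {e : Fin (m + 2) →₀ ℕ}
    (hτ : tail e = τ) (hd : e.degree = d) :
    (F.proj τ t).coeff (e 0) = F.basis.repr t e := by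
  rw [proj, Basis.constr_apply, Finsupp.sum, Polynomial.finsetSum_coeff,
    Finset.sum_eq_single e]
  · simp [tb, hτ]
  · intro e' he' hne
    rw [Polynomial.coeff_smul, smul_eq_mul, tb]
    split_ifs with h
    · rw [Polynomial.coeff_X_pow, if_neg fun h0 => hne (exponent_ext (h.trans hτ.symm) h0.symm
        ((F.repr_degree ht (Finsupp.mem_support_iff.1 he')).trans hd.symm)), mul_zero]
    · simp
  · intro h
    rw [Finsupp.notMem_support_iff.1 h]
    simp

lemma proj_TD_le {s : ℕ} (τ : Fin m →₀ ℕ) {t : D ⊗[K] MvPolynomial (Fin (m + 2)) K}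
    (ht : t ∈ TD D (Fin (m + 2)) K (s + τ.degree)) : F.proj τ t ∈ BF D (s + 1) := by
  rw [← F.span_degree_eq] at ht
  induction ht using Submodule.span_induction with
  | mem x hx =>
    obtain ⟨e, he, rfl⟩ := hx
    rw [proj_mon, tb]
    split_ifs with h
    · rw [mem_BF_coeff]
      intro i hi
      rw [Polynomial.coeff_X_pow, if_neg]
      intro h0
      have h2 := he
      simp only [Set.mem_ofPred_eq] at h2
      rw [degree_split, h] at h2
      omega
    · exact zero_mem _
  | zero => simp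
  | add a b _ _ ha hb => rw [map_add]; exact add_mem ha hb
  | smul c a _ ha => rw [map_smul]; exact Submodule.smul_mem _ _ ha

lemma mon_mul_ypoly (e : Fin (m + 2) →₀ ℕ) (i j : ℕ) :
    F.mon e * poly (F.y 0 ^ i * F.y 1 ^ j) =
      F.mon (e + (Finsupp.single 0 i + Finsupp.single 1 j)) := by
  have h01 : (0 : Fin (m + 2)) ≠ 1 := fun h => by
    have := congrArg Fin.val h
    simp at this
  have ht : tail (Finsupp.single 0 i + Finsupp.single 1 j : Fin (m + 2) →₀ ℕ) = 0 := by
    ext k
    have h0 : (k.succ.succ : Fin (m + 2)) ≠ 0 := Fin.succ_ne_zero _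
    have h1 : (k.succ.succ : Fin (m + 2)) ≠ 1 := fun h => by
      have := congrArg Fin.val h
      simp at this
    simp [tail_apply, Finsupp.single_eq_of_ne h0, Finsupp.single_eq_of_ne h1]
  rw [mon, mon, mul_assoc, ← poly_comm, ← mul_assoc, tail_add e, ht, add_zero]
  congr 1
  simp only [poly, Algebra.TensorProduct.tmul_mul_tmul, one_mul]
  congr 1
  simp [Finsupp.single_eq_of_ne h01, Finsupp.single_eq_of_ne h01.symm, pow_add]
  ring

lemma mon_of_tail_zero {e : Fin (m + 2) →₀ ℕ} (h : tail e = 0) :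
    F.mon e = poly (F.y 0 ^ e 0 * F.y 1 ^ e 1) := by
  rw [mon, h]
  simp [wordL]

lemma mon_zero : F.mon 0 = 1 := by
  simp [mon, wordL, tail_apply, poly, Algebra.TensorProduct.one_def]

lemma rm_comp_ext {M : Type*} [AddCommGroup M] [Module D M]
    {f g : D ⊗[K] MvPolynomial (Fin (m + 2)) K →ₗ[D] M} (h : ∀ e, f (F.mon e) = g (F.mon e)) :
    f = g :=
  F.basis.ext fun e => by rw [F.basis_apply]; exact h e

lemma proj_mul_y0 (τ : Fin m →₀ ℕ) (t : D ⊗[K] MvPolynomial (Fin (m + 2)) K) :
    F.proj τ (t * poly (F.y 0)) = F.proj τ t * Polynomial.X := by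
  refine LinearMap.congr_fun (F.rm_comp_ext (f := (F.proj τ).comp (rm (poly (F.y 0))))
    (g := (rmul Polynomial.X).comp (F.proj τ)) fun e => ?_) t
  have h := F.mon_mul_ypoly e 1 0
  simp only [pow_one, pow_zero, mul_one, Finsupp.single_zero, add_zero] at h
  simp only [LinearMap.comp_apply, rm_apply, rmul_apply, h, proj_mon, tb, tail_add]
  have ht : tail (Finsupp.single 0 1 : Fin (m + 2) →₀ ℕ) = 0 := by
    ext k
    simp [tail_apply, Fin.succ_ne_zero]
  rw [ht, add_zero]
  split_ifs <;> simp [pow_succ]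

lemma proj_mul_y1 (τ : Fin m →₀ ℕ) (t : D ⊗[K] MvPolynomial (Fin (m + 2)) K) :
    F.proj τ (t * poly (F.y 1)) = F.proj τ t := by
  refine LinearMap.congr_fun (F.rm_comp_ext (f := (F.proj τ).comp (rm (poly (F.y 1))))
    (g := F.proj τ) fun e => ?_) t
  have h := F.mon_mul_ypoly e 0 1
  simp only [pow_one, pow_zero, one_mul, Finsupp.single_zero, zero_add] at h
  simp only [LinearMap.comp_apply, rm_apply, h, proj_mon, tb, tail_add]
  have h1 : ∀ k : Fin m, (k.succ.succ : Fin (m + 2)) ≠ 1 := fun k hk => by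
    have := congrArg Fin.val hk
    simp at this
  have ht : tail (Finsupp.single 1 1 : Fin (m + 2) →₀ ℕ) = 0 := by
    ext k
    simp [tail_apply, Finsupp.single_eq_of_ne (h1 k)]
  rw [ht, add_zero]
  have h01 : (0 : Fin (m + 2)) ≠ 1 := fun h => by
    have := congrArg Fin.val h
    simp at this
  simp [Finsupp.single_eq_of_ne h01]

lemma FS_mul_y {τ : Fin m →₀ ℕ} (j : Fin 2) {t : D ⊗[K] MvPolynomial (Fin (m + 2)) K}
    (ht : t ∈ F.FS τ) : t * poly (F.y j) ∈ F.FS τ := by
  have h : (F.FS τ).map (rm (poly (F.y j))) ≤ F.FS τ := by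
    rw [FS, Submodule.map_span, Submodule.span_le]
    rintro _ ⟨_, ⟨e, he, rfl⟩, rfl⟩
    refine Submodule.subset_span ⟨e + Finsupp.single (yIdx j) 1, ?_, ?_⟩
    · have hz : tail (Finsupp.single (yIdx (m := m) j) 1) = 0 := by
        ext k
        have : yIdx (m := m) j ≠ k.succ.succ := fun h => by
          have := congrArg Fin.val h
          simp [yIdx] at this
          omega
        simp [tail_apply, this]
      simpa [tail_add, hz] using he
    · rw [F.basis_apply, F.basis_apply, rm_apply, F.mon_mul_y]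
  exact h ⟨t, ht, rfl⟩

lemma tail_single_succ (k : Fin m) (b : ℕ) :
    tail (Finsupp.single k.succ.succ b) = (Finsupp.single k b : Fin m →₀ ℕ) := by
  ext l; simp [tail_apply, Finsupp.single_apply]

lemma mon_mul_phi_of_tail {τ : Fin m →₀ ℕ} {k : Fin m} {c : D} (hcc : ∀ d, Commute c d)
    (hw : F.wordL (List.finRange m) τ * F.phi k =
      scal c * F.wordL (List.finRange m) (τ + Finsupp.single k 1))
    {e : Fin (m + 2) →₀ ℕ} (he : tail e = τ) :
    F.mon e * F.phi k = c • F.mon (e + Finsupp.single k.succ.succ 1) := by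
  have h0 : (0 : Fin (m + 2)) ≠ k.succ.succ := (Fin.succ_ne_zero _).symm
  have h1 : (1 : Fin (m + 2)) ≠ k.succ.succ := fun hk => by
    have := congrArg Fin.val hk
    simp at this
  rw [← scal_mul, mon, mon, tail_add, tail_single_succ, he, Finsupp.add_apply, Finsupp.add_apply,
    Finsupp.single_eq_of_ne h0, Finsupp.single_eq_of_ne h1, add_zero, add_zero, mul_assoc, hw,
    ← mul_assoc, ← scal_comm hcc, mul_assoc]

/-- Scaling by a central scalar. -/
noncomputable def scaleMap (c : D) (hcc : ∀ d, Commute c d) : Polynomial D →ₗ[D] Polynomial D where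
  toFun p := c • p
  map_add' p q := smul_add c p q
  map_smul' x p := by simp [smul_smul, (hcc x).eq]

lemma proj_mul_phi_mon {τ : Fin m →₀ ℕ} {k : Fin m} {c : D} (hcc : ∀ d, Commute c d)
    (hw : F.wordL (List.finRange m) τ * F.phi k =
      scal c * F.wordL (List.finRange m) (τ + Finsupp.single k 1)) (e : Fin (m + 2) →₀ ℕ) :
    F.proj (τ + Finsupp.single k 1) (F.mon e * F.phi k) = c • F.proj τ (F.mon e) := by
  by_cases h : tail e = τ
  · have h0 : (0 : Fin (m + 2)) ≠ k.succ.succ := (Fin.succ_ne_zero _).symm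
    rw [F.mon_mul_phi_of_tail hcc hw h, map_smul, proj_mon, proj_mon, tb, tb,
      if_pos (show tail (e + Finsupp.single k.succ.succ 1) = τ + Finsupp.single k 1 by
        rw [tail_add, tail_single_succ, h]), if_pos h, Finsupp.add_apply,
      Finsupp.single_eq_of_ne h0, add_zero]
  · obtain ⟨c', -, -, hm⟩ := F.mon_mul_phi e k
    rw [hm, scal_mul, map_smul, proj_mon, proj_mon, tb, tb,
      if_neg (show ¬ tail (e + Finsupp.single k.succ.succ 1) = τ + Finsupp.single k 1 by
        rw [tail_add, tail_single_succ]; exact fun h' => h (add_right_cancel h')),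
      if_neg h, smul_zero, smul_zero]

lemma proj_mul_phi (τ : Fin m →₀ ℕ) (k : Fin m) :
    ∃ c : D, c ≠ 0 ∧ (∀ d, Commute c d) ∧ ∀ t,
      F.proj (τ + Finsupp.single k 1) (t * F.phi k) = c • F.proj τ t := by
  obtain ⟨c, hc, hcc, hw⟩ := F.scales_wordL_mul (List.finRange m) τ k (List.nodup_finRange m)
    (List.mem_finRange k)
  refine ⟨c, hc, hcc, fun t => ?_⟩
  have key : (F.proj (τ + Finsupp.single k 1)).comp (rm (F.phi k)) =
      (scaleMap c hcc).comp (F.proj τ) := F.rm_comp_ext fun e => F.proj_mul_phi_mon hcc hw e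
  have h := LinearMap.congr_fun key t
  rw [LinearMap.comp_apply, LinearMap.comp_apply, rm_apply] at h
  exact h

lemma FS_mul_phi {τ : Fin m →₀ ℕ} (k : Fin m) {t : D ⊗[K] MvPolynomial (Fin (m + 2)) K}
    (ht : t ∈ F.FS τ) : t * F.phi k ∈ F.FS (τ + Finsupp.single k 1) := by
  have h : (F.FS τ).map (rm (F.phi k)) ≤ F.FS (τ + Finsupp.single k 1) := by
    rw [FS, Submodule.map_span, Submodule.span_le]
    rintro _ ⟨_, ⟨e, he, rfl⟩, rfl⟩
    obtain ⟨c, -, -, hm⟩ := F.mon_mul_phi e k
    rw [F.basis_apply, rm_apply, hm, scal_mul]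
    refine Submodule.smul_mem _ _ (Submodule.subset_span ⟨_, ?_, F.basis_apply _⟩)
    show toLex _ ≤ toLex (tail (e + Finsupp.single k.succ.succ 1))
    rw [tail_add, tail_single_succ]
    exact toLex_add_le _ he
  exact h ⟨t, ht, rfl⟩

lemma proj_zero_mul_phi (t : D ⊗[K] MvPolynomial (Fin (m + 2)) K) (k : Fin m) :
    F.proj 0 (t * F.phi k) = 0 := by
  refine LinearMap.congr_fun (F.rm_comp_ext (f := (F.proj 0).comp (rm (F.phi k)))
    (g := 0) fun e => ?_) t
  obtain ⟨c', -, -, hm⟩ := F.mon_mul_phi e k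
  simp only [LinearMap.comp_apply, rm_apply, LinearMap.zero_apply, hm, scal_mul, map_smul,
    proj_mon, tb, tail_add, tail_single_succ]
  rw [if_neg, smul_zero]
  intro h
  have := DFunLike.congr_fun h k
  simp at this

lemma proj_zero_mul_word {τ : Fin m →₀ ℕ} (hτ : τ ≠ 0)
    (t : D ⊗[K] MvPolynomial (Fin (m + 2)) K) :
    F.proj 0 (t * F.wordL (List.finRange m) τ) = 0 := by
  obtain ⟨k, hk⟩ := Finsupp.ne_iff.1 hτ
  have hsub : τ - Finsupp.single k 1 + Finsupp.single k 1 = τ := by
    refine tsub_add_cancel_of_le ?_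
    rw [Finsupp.single_le_iff]
    simp at hk; omega
  obtain ⟨c, hc, hcc, hw⟩ := F.scales_wordL_mul (List.finRange m) (τ - Finsupp.single k 1) k
    (List.nodup_finRange m) (List.mem_finRange k)
  rw [hsub] at hw
  have h := F.proj_zero_mul_phi (t * F.wordL (List.finRange m) (τ - Finsupp.single k 1)) k
  rw [mul_assoc, hw, ← mul_assoc, ← scal_comm hcc, mul_assoc, scal_mul, map_smul] at h
  exact (smul_eq_zero.1 h).resolve_left hc

lemma proj_zero_mul_poly (p : MvPolynomial (Fin (m + 2)) K)
    (t : D ⊗[K] MvPolynomial (Fin (m + 2)) K) :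
    F.proj 0 (t * poly p) = F.proj 0 t * F.proj 0 (poly p) := by
  refine LinearMap.congr_fun (F.rm_comp_ext (f := (F.proj 0).comp (rm (poly p)))
    (g := (rmul (F.proj 0 (poly p))).comp (F.proj 0)) fun e => ?_) t
  simp only [LinearMap.comp_apply, rm_apply, rmul_apply]
  rw [← poly_comm, proj_mon, tb]
  split_ifs with h
  · rw [F.mon_of_tail_zero h]
    let G := (rmul (Polynomial.X ^ e 0 : Polynomial D)).comp (F.proj 0)
    have hlin : (F.proj 0).comp (rm (poly (F.y 0 ^ e 0 * F.y 1 ^ e 1))) = G := by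
      refine F.rm_comp_ext fun e' => ?_
      simp only [G, LinearMap.comp_apply, rm_apply, rmul_apply, F.mon_mul_ypoly, proj_mon, tb]
      have ht : tail (Finsupp.single 0 (e 0) + Finsupp.single 1 (e 1) : Fin (m + 2) →₀ ℕ) = 0 := by
        ext k
        have h0 : (k.succ.succ : Fin (m + 2)) ≠ 0 := Fin.succ_ne_zero _
        have h1 : (k.succ.succ : Fin (m + 2)) ≠ 1 := fun h => by
          have := congrArg Fin.val h
          simp at this
        simp [tail_apply, Finsupp.single_eq_of_ne h0, Finsupp.single_eq_of_ne h1]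
      have h01 : (0 : Fin (m + 2)) ≠ 1 := fun h => by
        have := congrArg Fin.val h
        simp at this
      rw [tail_add, ht, add_zero]
      split_ifs <;> simp [Finsupp.single_eq_of_ne h01, pow_add]
    have h' := LinearMap.congr_fun hlin (poly p)
    simp only [LinearMap.comp_apply, rm_apply, G, rmul_apply] at h'
    rw [h']
    exact ((Polynomial.commute_X_pow _ _).eq).symm
  · rw [mon, ← mul_assoc, F.proj_zero_mul_word h, zero_mul]

lemma wordL_single : ∀ (L : List (Fin m)), L.Nodup → ∀ (k : Fin m) (b : ℕ),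
    F.wordL L (Finsupp.single k b) = if k ∈ L then F.phi k ^ b else 1
  | [], _, k, b => by simp [wordL]
  | l :: L, hL, k, b => by
    rw [List.nodup_cons] at hL
    have h := wordL_single L hL.2 k b
    simp only [wordL, List.map_cons, List.prod_cons] at h ⊢
    rw [h]
    rcases eq_or_ne k l with rfl | hkl
    · simp [hL.1]
    · simp [Finsupp.single_eq_of_ne hkl.symm, hkl]

end Frame

section Layers

variable (F : Frame K D m)

/-- The layer of an ideal at the skew exponent `τ`. -/
noncomputable def layer (J : Ideal (MvPolynomial (Fin (m + 2)) K)) (τ : Fin m →₀ ℕ) (s : ℕ) :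
    Submodule D (Polynomial D) :=
  (ext' D (degPart (s + τ.degree) J) ⊓ F.FS τ).map (F.proj τ)

lemma ext_degPart_le_TD (J : Ideal (MvPolynomial (Fin (m + 2)) K)) (d : ℕ) :
    ext' D (degPart d J) ≤ TD D (Fin (m + 2)) K d :=
  Submodule.span_mono (Set.image_mono fun _ hp =>
    (mem_homogeneousSubmodule _ _).2 (mem_degPart.1 hp).1)

lemma ext_mono {σ : Type*} {W W' : Submodule K (MvPolynomial σ K)} (h : W ≤ W') :
    ext' D W ≤ ext' D W' :=
  Submodule.span_mono (Set.image_mono h)

lemma layer_le (J : Ideal (MvPolynomial (Fin (m + 2)) K)) (τ : Fin m →₀ ℕ) (s : ℕ) :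
    layer F J τ s ≤ BF D (s + 1) := by
  rintro _ ⟨t, ht, rfl⟩
  exact F.proj_TD_le τ (ext_degPart_le_TD J _ ht.1)

lemma ext_degPart_mul {J : Ideal (MvPolynomial (Fin (m + 2)) K)} {d e : ℕ}
    {t u : D ⊗[K] MvPolynomial (Fin (m + 2)) K} (ht : t ∈ ext' D (degPart d J))
    (hu : u ∈ TD D (Fin (m + 2)) K e) : t * u ∈ ext' D (degPart (d + e) J) :=
  ext_mul_le (fun p hp q hq => mem_degPart.2 ⟨(mem_degPart.1 hp).1.mul
    ((mem_homogeneousSubmodule _ _).1 hq), J.mul_mem_right _ (mem_degPart.1 hp).2⟩) ht hu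

lemma up_layer_le (J : Ideal (MvPolynomial (Fin (m + 2)) K)) (τ : Fin m →₀ ℕ) (s : ℕ) :
    up (layer F J τ s) ≤ layer F J τ (s + 1) := by
  have h : ∀ t ∈ ext' D (degPart (s + τ.degree) J) ⊓ F.FS τ, ∀ j,
      t * poly (F.y j) ∈ ext' D (degPart (s + 1 + τ.degree) J) ⊓ F.FS τ := fun t ht j => by
    refine ⟨?_, F.FS_mul_y j ht.2⟩
    rw [show s + 1 + τ.degree = s + τ.degree + 1 by omega]
    exact ext_degPart_mul ht.1 (poly_mem_TD (F.y_hom j))
  refine sup_le ?_ ?_
  · rintro _ ⟨t, ht, rfl⟩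
    exact ⟨_, h t ht 1, F.proj_mul_y1 τ t⟩
  · rintro _ ⟨_, ⟨t, ht, rfl⟩, rfl⟩
    exact ⟨_, h t ht 0, F.proj_mul_y0 τ t⟩

lemma layer_le_succ (J : Ideal (MvPolynomial (Fin (m + 2)) K)) (τ : Fin m →₀ ℕ) (k : Fin m)
    (s : ℕ) : layer F J τ s ≤ layer F J (τ + Finsupp.single k 1) s := by
  rintro _ ⟨t, ht, rfl⟩
  obtain ⟨c, hc, -, hproj⟩ := F.proj_mul_phi τ k
  have hd : s + (τ + Finsupp.single k 1).degree = s + τ.degree + 1 := by simp; omega
  have hmem : c • F.proj τ t ∈ layer F J (τ + Finsupp.single k 1) s := by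
    refine ⟨_, ⟨?_, F.FS_mul_phi k ht.2⟩, hproj t⟩
    rw [hd]
    exact ext_degPart_mul ht.1 (F.phi_mem k)
  exact (Submodule.smul_mem_iff _ hc).1 hmem

lemma layer_mono (J : Ideal (MvPolynomial (Fin (m + 2)) K)) {τ τ' : Fin m →₀ ℕ} (h : τ ≤ τ')
    (s : ℕ) : layer F J τ s ≤ layer F J τ' s := by
  obtain ⟨δ, rfl⟩ := le_iff_exists_add.1 h
  clear h
  induction δ using Finsupp.induction₂ with
  | zero => simp
  | add_single k b δ _ hb ih =>
    refine ih.trans ?_
    clear ih hb
    induction b with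
    | zero => simp
    | succ b ih =>
      refine ih.trans ?_
      simp only [Finsupp.single_add, ← add_assoc]
      exact layer_le_succ F J _ k s

lemma finrank_inf_FS {d : ℕ} (W : Submodule D (D ⊗[K] MvPolynomial (Fin (m + 2)) K))
    [FiniteDimensional D W] (hW : W ≤ TD D (Fin (m + 2)) K d) (τ : Fin m →₀ ℕ)
    (W' : Submodule D (D ⊗[K] MvPolynomial (Fin (m + 2)) K))
    (hW' : ∀ t ∈ W, t ∈ W' ↔ ∀ e, F.basis.repr t e ≠ 0 → toLex τ < toLex (Frame.tail e)) :
    finrank D ↥(W ⊓ F.FS τ) =
      finrank D ((W ⊓ F.FS τ).map (F.proj τ)) + finrank D ↥(W ⊓ W') := by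
  set P := W ⊓ F.FS τ
  have hP : FiniteDimensional D P := Submodule.finiteDimensional_of_le inf_le_left
  have h := LinearMap.finrank_range_add_finrank_ker (K := D) (V := ↥P) (V₂ := Polynomial D)
    ((F.proj τ).domRestrict P)
  rw [LinearMap.range_domRestrict] at h
  rw [← h]
  congr 1
  have e : P ⊓ LinearMap.ker (F.proj τ) = W ⊓ W' := by
    ext t
    simp only [P, Submodule.mem_inf, LinearMap.mem_ker]
    constructor
    · rintro ⟨⟨ht, hFS⟩, h0⟩
      refine ⟨ht, (hW' t ht).2 fun e he => lt_of_le_of_ne (F.mem_FS.1 hFS e he) fun h => he ?_⟩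
      have hτ : Frame.tail e = τ := (toLex.injective h).symm
      rw [← F.coeff_proj (hW ht) hτ (F.repr_degree (hW ht) he), h0, Polynomial.coeff_zero]
    · rintro ⟨ht, ht'⟩
      have h' := (hW' t ht).1 ht'
      refine ⟨⟨ht, F.mem_FS.2 fun e he => (h' e he).le⟩, ?_⟩
      rw [Frame.proj, Basis.constr_apply]
      refine Finset.sum_eq_zero fun e he => ?_
      show F.basis.repr t e • Frame.tb τ e = 0
      rw [Frame.tb, if_neg, smul_zero]
      intro heq
      exact (h' e (Finsupp.mem_support_iff.1 he)).ne (by rw [heq])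
  rw [← e, ← Submodule.map_comap_subtype, LinearMap.ker_domRestrict]
  exact (Submodule.equivMapOfInjective _ (Submodule.injective_subtype P) _).finrank_eq

lemma finrank_degPart_eq_sum (J : Ideal (MvPolynomial (Fin (m + 2)) K)) (d : ℕ) :
    finrank K (degPart d J) =
      ∑ τ ∈ Quad.yExps m d, finrank D (layer F J τ (d - τ.degree)) := by
  classical
  have : FiniteDimensional K (degPart d J) :=
    Submodule.finiteDimensional_of_le (S₂ := homogeneousSubmodule (Fin (m + 2)) K d) fun p hp =>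
      (mem_homogeneousSubmodule _ _).2 (mem_degPart.1 hp).1
  set W := ext' D (degPart d J) with hWdef
  have hWd : W ≤ TD D (Fin (m + 2)) K d := ext_degPart_le_TD J d
  have hWf : FiniteDimensional D W := by
    have : FiniteDimensional D (TD D (Fin (m + 2)) K d) := by
      rw [← F.span_degree_eq]
      refine Module.Finite.span_of_finite D (Set.Finite.image _ ?_)
      refine Set.Finite.subset ((Finset.univ : Finset (Fin (m + 2))).finsuppAntidiag d).finite_toSet
        fun e he => ?_
      simpa [Finsupp.degree_eq_sum] using he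
    exact Submodule.finiteDimensional_of_le hWd
  let Sp : Finset (Lex (Fin m →₀ ℕ)) → Submodule D (D ⊗[K] MvPolynomial (Fin (m + 2)) K) :=
    fun s => Submodule.span D (F.basis '' {e | toLex (Frame.tail e) ∈ s})
  have hSp : ∀ s t, t ∈ Sp s ↔ ∀ e, F.basis.repr t e ≠ 0 → toLex (Frame.tail e) ∈ s := fun s t => by
    simp only [Sp, Basis.mem_span_image]
    exact ⟨fun h e he => h (Finsupp.mem_support_iff.2 he),
      fun h e he => h e (Finsupp.mem_support_iff.1 he)⟩
  set keys : Finset (Lex (Fin m →₀ ℕ)) := (Quad.yExps m d).image toLex with hkeys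
  have hkey : ∀ t ∈ W, ∀ e, F.basis.repr t e ≠ 0 → toLex (Frame.tail e) ∈ keys := fun t ht e he => by
    refine Finset.mem_image_of_mem _ (Quad.mem_yExps.2 ?_)
    have := F.repr_degree (hWd ht) he
    rw [Frame.degree_split] at this
    omega
  have main : ∀ s : Finset (Lex (Fin m →₀ ℕ)), s ⊆ keys →
      (∀ x ∈ s, ∀ y ∈ keys, x ≤ y → y ∈ s) →
      finrank D ↥(W ⊓ Sp s) =
        ∑ x ∈ s, finrank D (layer F J (ofLex x) (d - (ofLex x).degree)) := by
    intro s
    induction s using Finset.induction_on_min with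
    | empty =>
      intro _ _
      simp [Sp]
    | insert x s hx ih =>
      intro hsub hup
      have hxs : x ∉ s := fun h => lt_irrefl x (hx x h)
      rw [Finset.sum_insert hxs, ← ih (fun y hy => hsub (Finset.mem_insert_of_mem hy))
        (fun y hy z hz hyz => (Finset.mem_insert.1
          (hup y (Finset.mem_insert_of_mem hy) z hz hyz)).resolve_left
            fun h => absurd (lt_of_lt_of_le (hx y hy) hyz) (by rw [h]; exact lt_irrefl x))]
      have hdeg : (ofLex x).degree ≤ d := by
        obtain ⟨τ, hτ, rfl⟩ := Finset.mem_image.1 (hsub (Finset.mem_insert_self x s))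
        exact Quad.mem_yExps.1 hτ
      have h1 : W ⊓ Sp (insert x s) = W ⊓ F.FS (ofLex x) := by
        ext t
        simp only [Submodule.mem_inf, and_congr_right_iff]
        intro ht
        rw [hSp, F.mem_FS]
        refine ⟨fun h e he => ?_, fun h e he => ?_⟩
        · rcases Finset.mem_insert.1 (h e he) with h' | h'
          · rw [h']; rfl
          · exact (hx _ h').le
        · exact hup x (Finset.mem_insert_self x s) _ (hkey t ht e he) (h e he)
      rw [h1, finrank_inf_FS F W hWd (ofLex x) (Sp s) fun t ht => ?_]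
      · rw [layer, Nat.sub_add_cancel hdeg]
      · rw [hSp]
        refine ⟨fun h e he => hx _ (h e he), fun h e he => ?_⟩
        exact (Finset.mem_insert.1 (hup x (Finset.mem_insert_self x s) _ (hkey t ht e he)
          (h e he).le)).resolve_left (h e he).ne'
  have hfull : W ⊓ Sp keys = W :=
    inf_eq_left.2 fun t ht => (hSp keys t).2 (hkey t ht)
  have h := main keys subset_rfl fun x _ y hy _ => hy
  rw [hfull, hWdef, finrank_ext, hkeys, Finset.sum_image fun a _ b _ h => toLex.injective h] at h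
  exact h

end Layers

end Vale.Agent.P200.Skew
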